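import Vale.Agent.N336.Signed

/-!
Signed width reduction for functions of block parities.
-/

namespace Vale.Agent.N336.Blocks

open Finset Vale.Agent.N336 Vale.Agent.N336.Signed

/-- A set with short certificates for non-membership is the solution set of a narrow CNF. -/
theorem exists_cnf_of_cert {W : Type*} [DecidableEq W] [Fintype W] (P : Finset (W → Bool)) (k : ℕ)
    (h : ∀ z, z ∉ P → ∃ J : Finset W, J.card ≤ k ∧ ∀ z' ∈ P, ∃ i ∈ J, z' i ≠ z i) :
    ∃ F : Finset (Clause W), (∀ D ∈ F, D.card ≤ k) ∧ sols F = P := by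
  refine ⟨univ.filter fun D => D.card ≤ k ∧ ∀ z ∈ P, sat D z, fun D hD => (mem_filter.1 hD).2.1, ?_⟩
  ext z
  rw [mem_sols]
  constructor
  · intro hz
    by_contra hn
    obtain ⟨J, hJ, hc⟩ := h z hn
    obtain ⟨l, hl, e⟩ := hz (J.image fun i => (i, !z i))
      (mem_filter.2 ⟨mem_univ _, card_image_le.trans hJ, fun z' hz' => by
        obtain ⟨i, hi, hne⟩ := hc z' hz'
        refine ⟨(i, !z i), mem_image_of_mem _ hi, ?_⟩
        revert hne
        cases z' i <;> cases z i <;> simp⟩)
    obtain ⟨i, -, rfl⟩ := mem_image.1 hl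
    simp at e
  · intro hz D hD
    exact (mem_filter.1 hD).2.2 z hz

variable {m b : ℕ}

/-- The values of `p` on the blocks of `x`. -/
def par (p : (Fin b → Bool) → Bool) (x : Fin m × Fin b → Bool) (i : Fin m) : Bool :=
  p fun j => x (i, j)

/-- `p` changes its value whenever one coordinate is flipped. -/
def Flips (p : (Fin b → Bool) → Bool) : Prop :=
  ∀ u j, p (Function.update u j (!u j)) = !p u

/-- The set of variables chosen by `l`, at most one in each block. -/
def live (l : Fin m → Option (Fin b)) : Finset (Fin m × Fin b) :=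
  univ.filter fun v => l v.1 = some v.2

theorem mem_live {l : Fin m → Option (Fin b)} {v : Fin m × Fin b} :
    v ∈ live l ↔ l v.1 = some v.2 := by simp [live]

theorem live_injective : Function.Injective (live : (Fin m → Option (Fin b)) → _) := by
  intro l l' h
  funext i
  refine Option.ext fun j => ?_
  have : (i, j) ∈ live l ↔ (i, j) ∈ live l' := by rw [h]
  simpa [mem_live] using this

theorem card_live (l : Fin m → Option (Fin b)) :
    (live l).card = (univ.filter fun i => (l i).isSome).card := by
  refine card_bij (fun v _ => v.1) ?_ ?_ ?_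
  · intro v hv
    simp [mem_live.1 hv]
  · rintro ⟨i, j⟩ h1 ⟨i', j'⟩ h2 (rfl : i = i')
    have a1 : l i = some j := mem_live.1 h1
    have a2 : l i = some j' := mem_live.1 h2
    simpa using a1.symm.trans a2
  · intro i hi
    obtain ⟨j, hj⟩ := Option.isSome_iff_exists.1 (mem_filter.1 hi).2
    exact ⟨(i, j), mem_live.2 hj, rfl⟩

theorem card_live_le (l : Fin m → Option (Fin b)) : (live l).card ≤ m := by
  rw [card_live]
  exact (card_le_univ _).trans (by simp)

theorem live_down (l : Fin m → Option (Fin b)) {L : Finset (Fin m × Fin b)} (h : L ⊆ live l) :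
    ∃ l', live l' = L := by
  refine ⟨fun i => if ∃ j, (i, j) ∈ L then l i else none, ?_⟩
  ext ⟨i, j⟩
  rw [mem_live]
  constructor
  · intro e
    by_cases hi : ∃ j, (i, j) ∈ L
    · obtain ⟨j', hj'⟩ := hi
      have e1 : l i = some j' := mem_live.1 (h hj')
      have e2 : l i = some j := by simpa [show ∃ j, (i, j) ∈ L from ⟨j', hj'⟩] using e
      have : j' = j := by simpa using e1.symm.trans e2
      exact this ▸ hj'
    · simp [hi] at e
  · intro e
    have e1 : l i = some j := mem_live.1 (h e)
    simp [show ∃ j, (i, j) ∈ L from ⟨j, e⟩, e1]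

theorem sum_live (w : ℝ) :
    ∑ L ∈ univ.image (live : (Fin m → Option (Fin b)) → _), w ^ L.card = (1 + b * w) ^ m := by
  rw [sum_image fun _ _ _ _ h => live_injective h]
  have h1 : ∀ l : Fin m → Option (Fin b),
      w ^ (live l).card = ∏ i, (if (l i).isSome then w else 1) := by
    intro l
    rw [card_live, prod_ite, prod_const, prod_const_one, mul_one]
  simp only [h1]
  rw [← Fintype.piFinset_univ,
    ← prod_univ_sum (fun _ => univ) fun (_ : Fin m) (o : Option (Fin b)) =>
      if o.isSome then w else 1]
  simp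

theorem pow_le_card_full : b ^ m ≤
    ((univ.image (live : (Fin m → Option (Fin b)) → _)).filter fun L => L.card = m).card := by
  have : b ^ m = (univ : Finset (Fin m → Fin b)).card := by simp
  rw [this]
  refine card_le_card_of_injOn (fun l => live fun i => some (l i)) ?_ ?_
  · intro l _
    simp only [coe_filter, Set.mem_ofPred_eq]
    exact ⟨mem_image_of_mem _ (mem_univ _), by simp [card_live]⟩
  · intro l _ l' _ h
    funext i
    simpa using congrFun (live_injective h) i

variable {p : (Fin b → Bool) → Bool}

theorem par_eq_of_none {l : Fin m → Option (Fin b)} {x y : Fin m × Fin b → Bool}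
    (hy : y ∈ cube (live l) x) {i : Fin m} (hi : l i = none) : par p y i = par p x i := by
  unfold par
  congr 1
  funext j
  exact mem_cube.1 hy _ (by simp [mem_live, hi])

theorem eq_of_par_eq (hp : Flips p) {l : Fin m → Option (Fin b)} {x y y' : Fin m × Fin b → Bool}
    (hy : y ∈ cube (live l) x) (hy' : y' ∈ cube (live l) x) {v : Fin m × Fin b}
    (h : v ∈ live l → par p y v.1 = par p y' v.1) : y v = y' v := by
  by_cases hv : v ∈ live l
  · by_contra hne
    have e : (fun j => y' (v.1, j))
        = Function.update (fun j => y (v.1, j)) v.2 (!(fun j => y (v.1, j)) v.2) := by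
      funext j
      by_cases hj : j = v.2
      · subst hj
        simp only [Function.update_self]
        revert hne
        cases y v <;> cases y' v <;> simp
      · rw [Function.update_of_ne hj]
        have hn : (v.1, j) ∉ live l := by
          rw [mem_live, mem_live.1 hv]
          simpa using Ne.symm hj
        exact (mem_cube.1 hy' _ hn).trans (mem_cube.1 hy _ hn).symm
    have h2 := h hv
    unfold par at h2
    rw [e, hp] at h2
    simp at h2
  · exact (mem_cube.1 hy _ hv).trans (mem_cube.1 hy' _ hv).symm

theorem exists_par_eq (hp : Flips p) (l : Fin m → Option (Fin b)) (x : Fin m × Fin b → Bool)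
    (z : Fin m → Bool) (h : ∀ i, l i = none → z i = par p x i) :
    ∃ y ∈ cube (live l) x, par p y = z := by
  refine ⟨fun v => if v ∈ live l ∧ par p x v.1 ≠ z v.1 then !x v else x v,
    mem_cube.2 fun v hv => by simp [hv], ?_⟩
  funext i
  by_cases e : par p x i = z i
  · rw [← e]
    change p (fun j' => if (i, j') ∈ live l ∧ par p x i ≠ z i then !x (i, j') else x (i, j'))
      = p fun j' => x (i, j')
    congr 1
    funext j
    simp [e]
  · cases hl : l i with
    | none => exact absurd (h i hl).symm e
    | some j =>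
      have e2 : (fun j' => if (i, j') ∈ live l ∧ par p x i ≠ z i then !x (i, j') else x (i, j'))
          = Function.update (fun j' => x (i, j')) j (!(fun j' => x (i, j')) j) := by
        funext j'
        by_cases hj : j' = j
        · subst hj
          simp [mem_live, hl, e]
        · rw [Function.update_of_ne hj]
          simp [mem_live, hl, Ne.symm hj]
      change p (fun j' => if (i, j') ∈ live l ∧ par p x i ≠ z i then !x (i, j') else x (i, j')) = _
      rw [e2, hp]
      change (!par p x i) = z i
      revert e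
      cases par p x i <;> cases z i <;> simp

/-- The sum over a cube of a CNF that is narrow on the cube is a sum over a narrow CNF. -/
theorem link (hp : Flips p) {k' : ℕ} (hk' : 1 ≤ k') (χ : (Fin m → Bool) → ℝ) {B : ℝ}
    (hB : ∀ F : Finset (Clause (Fin m)), (∀ D ∈ F, D.card ≤ k') → |∑ z ∈ sols F, χ z| ≤ B)
    (C : ℕ → Clause (Fin m × Fin b)) (l : Fin m → Option (Fin b)) (x : Fin m × Fin b → Bool)
    (N : Finset ℕ) (hN : ∀ s ∈ N, (vars (C s) ∩ live l).card ≤ k') :
    |∑ y ∈ cube (live l) x with allIn C N y, χ (par p y)| ≤ B := by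
  set Q := (cube (live l) x).filter (allIn C N) with hQ
  have hinj : Set.InjOn (par p) (Q : Set (Fin m × Fin b → Bool)) := by
    intro y hy y' hy' e
    funext v
    exact eq_of_par_eq hp (mem_filter.1 hy).1 (mem_filter.1 hy').1 fun _ => congrFun e _
  rw [← sum_image hinj]
  obtain ⟨F, hF, e⟩ := exists_cnf_of_cert (Q.image (par p)) k' fun z hz => by
    by_cases h : ∀ i, l i = none → z i = par p x i
    · obtain ⟨y, hy, rfl⟩ := exists_par_eq hp l x z h
      have h1 : ¬ allIn C N y := fun ha => hz (mem_image_of_mem _ (mem_filter.2 ⟨hy, ha⟩))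
      simp only [allIn, not_forall] at h1
      obtain ⟨s, hs, hns⟩ := h1
      refine ⟨(vars (C s) ∩ live l).image Prod.fst, card_image_le.trans (hN s hs), ?_⟩
      intro z' hz'
      obtain ⟨y', hy', rfl⟩ := mem_image.1 hz'
      by_contra hc
      push Not at hc
      refine hns ((sat_congr fun v hv => ?_).1 ((mem_filter.1 hy').2 s hs))
      exact eq_of_par_eq hp (mem_filter.1 hy').1 hy fun hl =>
        hc _ (mem_image_of_mem _ (mem_inter.2 ⟨hv, hl⟩))
    · push Not at h
      obtain ⟨i, hi, hne⟩ := h
      refine ⟨{i}, by simpa using hk', ?_⟩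
      intro z' hz'
      obtain ⟨y', hy', rfl⟩ := mem_image.1 hz'
      exact ⟨i, mem_singleton_self _, by
        rw [par_eq_of_none (mem_filter.1 hy').1 hi]
        exact hne.symm⟩
  rw [← e]
  exact hB F hF

/-- **Width reduction for block parities.** -/
theorem blocks (hp : Flips p) {k k' S : ℕ} (hk' : 1 ≤ k') (χ : (Fin m → Bool) → ℝ) {B : ℝ}
    (hB : ∀ F : Finset (Clause (Fin m)), (∀ D ∈ F, D.card ≤ k') → |∑ z ∈ sols F, χ z| ≤ B)
    (C : ℕ → Clause (Fin m × Fin b)) (hC : ∀ s < S, (C s).card ≤ k) {δ : ℝ} (hδ : 0 ≤ δ)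
    (hk : (1 + 2 * δ) ^ k ≤ 2 ^ (k' + 1)) :
    (b * δ) ^ m * |∑ x with allIn C (range S) x, χ (par p x)|
      ≤ B * 2 ^ (m * b) * (1 + b * (δ / 2)) ^ m := by
  have h := signed (C := C) (χ := fun x => χ (par p x)) (S := S) (k' := k')
    (univ.image (live : (Fin m → Option (Fin b)) → _)) (m := m) (k := k) (B := B)
    (fun L hL L' h' => by
      obtain ⟨l, -, rfl⟩ := mem_image.1 hL
      obtain ⟨l', rfl⟩ := live_down l h'
      exact mem_image_of_mem _ (mem_univ _))
    (fun L hL => by
      obtain ⟨l, -, rfl⟩ := mem_image.1 hL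
      exact card_live_le l) hC hδ hk
    (fun L hL x N hN => by
      obtain ⟨l, -, rfl⟩ := mem_image.1 hL
      exact link hp hk' χ hB C l x N fun s hs => (mem_filter.1 (hN hs)).2)
  rw [sum_live, Fintype.card_prod, Fintype.card_fin, Fintype.card_fin] at h
  refine le_trans ?_ h
  rw [mul_pow]
  have h2 : (b : ℝ) ^ m ≤ (((univ.image (live : (Fin m → Option (Fin b)) → _)).filter
      fun L => L.card = m).card : ℕ) := by exact_mod_cast pow_le_card_full (m := m) (b := b)
  gcongr

/-- The total sum of a function of the block values. -/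
theorem total (hp : Flips p) (hb : 0 < b) (f : (Fin m → Bool) → ℝ) :
    2 ^ m * ∑ x : Fin m × Fin b → Bool, f (par p x) = 2 ^ (m * b) * ∑ z, f z := by
  set l : Fin m → Option (Fin b) := fun _ => some ⟨0, hb⟩ with hl
  have h1 := sum_sum_cube (live l) fun x => f (par p x)
  have h2 : (live l).card = m := by simp [card_live, hl]
  rw [h2] at h1
  rw [← h1, sum_congr rfl (g := fun _ => ∑ z, f z)]
  · simp
  · intro x _
    refine sum_bij (fun y _ => par p y) (fun _ _ => mem_univ _) ?_ ?_ fun _ _ => rfl
    · intro y hy y' hy' e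
      funext v
      exact eq_of_par_eq hp hy hy' fun _ => congrFun e _
    · intro z _
      obtain ⟨y, hy, e⟩ := exists_par_eq hp l x z fun i hi => by simp [hl] at hi
      exact ⟨y, hy, e⟩

end Vale.Agent.N336.Blocks
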