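import Mathlib.Tactic
import Mathlib.Data.Fintype.BigOperators
import Mathlib.Algebra.BigOperators.Ring.Finset
import Mathlib.Algebra.Order.BigOperators.Ring.Finset

/-!
Clauses, CNFs and subcubes: the common vocabulary of the depth-three lower bound.
-/

namespace Vale.Agent.N336

open Finset

variable {V : Type*}

/-- A clause over the variables `V`: a finite set of literals; the literal `(v, b)` is true at `x`
when `x v = b`. -/
abbrev Clause (V : Type*) := Finset (V × Bool)

/-- `x` satisfies the clause `C`. -/
def sat (C : Clause V) (x : V → Bool) : Prop := ∃ l ∈ C, x l.1 = l.2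

instance (C : Clause V) (x : V → Bool) : Decidable (sat C x) := by
  unfold sat; infer_instance

/-- `x` satisfies all clauses of `F`. -/
def satAll (F : Finset (Clause V)) (x : V → Bool) : Prop := ∀ C ∈ F, sat C x

instance (F : Finset (Clause V)) (x : V → Bool) : Decidable (satAll F x) := by
  unfold satAll; infer_instance

theorem sat_mono {C D : Clause V} (h : C ⊆ D) {x : V → Bool} (hx : sat C x) : sat D x := by
  obtain ⟨l, hl, e⟩ := hx
  exact ⟨l, h hl, e⟩

variable [DecidableEq V]

/-- The variables of a clause. -/
def vars (C : Clause V) : Finset V := C.image Prod.fst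

theorem mem_vars {C : Clause V} {v : V} : v ∈ vars C ↔ ∃ b, (v, b) ∈ C := by
  simp [vars]

theorem card_vars_le (C : Clause V) : (vars C).card ≤ C.card := card_image_le

theorem sat_congr {C : Clause V} {x y : V → Bool} (h : ∀ v ∈ vars C, x v = y v) :
    sat C x ↔ sat C y := by
  constructor
  · rintro ⟨l, hl, e⟩
    exact ⟨l, hl, (h l.1 (mem_vars.2 ⟨l.2, hl⟩)).symm.trans e⟩
  · rintro ⟨l, hl, e⟩
    exact ⟨l, hl, (h l.1 (mem_vars.2 ⟨l.2, hl⟩)).trans e⟩

/-- Two points violating a clause agree on its variables. -/
theorem eq_of_not_sat {C : Clause V} {x y : V → Bool} (hx : ¬ sat C x) (hy : ¬ sat C y) {v : V}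
    (hv : v ∈ vars C) : x v = y v := by
  obtain ⟨b, hb⟩ := mem_vars.1 hv
  have h1 : x v ≠ b := fun e => hx ⟨(v, b), hb, e⟩
  have h2 : y v ≠ b := fun e => hy ⟨(v, b), hb, e⟩
  revert h1 h2
  cases x v <;> cases y v <;> cases b <;> simp

variable [Fintype V]

/-- The satisfying assignments of a CNF. -/
def sols (F : Finset (Clause V)) : Finset (V → Bool) := univ.filter (satAll F)

theorem mem_sols {F : Finset (Clause V)} {x : V → Bool} : x ∈ sols F ↔ ∀ C ∈ F, sat C x := by
  simp [sols, satAll]

/-- The subcube through `x` whose free coordinates are those of `L`. -/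
def cube (L : Finset V) (x : V → Bool) : Finset (V → Bool) :=
  univ.filter fun y => ∀ v, v ∉ L → y v = x v

theorem mem_cube {L : Finset V} {x y : V → Bool} : y ∈ cube L x ↔ ∀ v, v ∉ L → y v = x v := by
  simp [cube]

theorem self_mem_cube (L : Finset V) (x : V → Bool) : x ∈ cube L x := mem_cube.2 fun _ _ => rfl

theorem mem_cube_comm {L : Finset V} {x y : V → Bool} : y ∈ cube L x ↔ x ∈ cube L y := by
  simp only [mem_cube]
  exact ⟨fun h v hv => (h v hv).symm, fun h v hv => (h v hv).symm⟩

theorem cube_eq_of_mem {L : Finset V} {x y : V → Bool} (h : y ∈ cube L x) :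
    cube L y = cube L x := by
  ext z
  simp only [mem_cube] at h ⊢
  exact ⟨fun hz v hv => (hz v hv).trans (h v hv), fun hz v hv => (hz v hv).trans (h v hv).symm⟩

theorem card_cube (L : Finset V) (x : V → Bool) : (cube L x).card = 2 ^ L.card := by
  have e : cube L x = Fintype.piFinset fun v => if v ∈ L then univ else {x v} := by
    ext y
    simp only [mem_cube, Fintype.mem_piFinset]
    constructor
    · intro h v
      by_cases hv : v ∈ L
      · simp [hv]
      · simp [hv, h v hv]
    · intro h v hv
      simpa [hv] using h v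
  rw [e, Fintype.card_piFinset]
  have : ∀ v, (if v ∈ L then (univ : Finset Bool) else {x v}).card = if v ∈ L then 2 else 1 := by
    intro v
    split_ifs <;> simp
  simp only [this]
  rw [prod_ite, prod_const, prod_const_one, mul_one]
  simp

/-- Summing over all base points and the cubes through them. -/
theorem sum_sum_cube (L : Finset V) (f : (V → Bool) → ℝ) :
    ∑ x, ∑ y ∈ cube L x, f y = 2 ^ L.card * ∑ y, f y := by
  rw [sum_comm' (s' := fun y => cube L y) (t' := univ)]
  · rw [mul_sum]
    refine sum_congr rfl fun y _ => ?_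
    rw [sum_const, card_cube]
    simp
  · intro x y
    simp [mem_cube_comm]

/-- The points of a cube violating a clause form a smaller cube. -/
theorem filter_not_sat {L : Finset V} {x y : V → Bool} {C : Clause V} (hy : y ∈ cube L x)
    (hC : ¬ sat C y) : (cube L x).filter (fun z => ¬ sat C z) = cube (L \ vars C) y := by
  ext z
  rw [mem_filter, mem_cube, mem_cube]
  rw [mem_cube] at hy
  constructor
  · rintro ⟨h1, h2⟩ v hv
    by_cases hL : v ∈ L
    · exact eq_of_not_sat h2 hC (by simpa [hL] using hv)
    · exact (h1 v hL).trans (hy v hL).symm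
  · intro h
    refine ⟨fun v hv => (h v (by simp [hv])).trans (hy v hv), ?_⟩
    rwa [sat_congr (y := y) fun v hv => h v (by simp [hv])]

/-- A clause is violated by at most a `2^(-card)` fraction of the points. -/
theorem card_not_sat_mul_le (C : Clause V) :
    (univ.filter fun z : V → Bool => ¬ sat C z).card * 2 ^ C.card ≤ 2 ^ Fintype.card V := by
  by_cases h : ∃ y, ¬ sat C y
  · obtain ⟨y, hy⟩ := h
    have e := filter_not_sat (L := univ) (x := y) (self_mem_cube _ _) hy
    have e2 : cube univ y = univ := by
      ext z
      simp [mem_cube]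
    rw [e2] at e
    rw [e, card_cube]
    have hc : (vars C).card = C.card := by
      refine card_image_of_injOn ?_
      rintro ⟨v, b⟩ h1 ⟨w, c⟩ h2 (rfl : v = w)
      have g1 : y v ≠ b := fun e => hy ⟨(v, b), h1, e⟩
      have g2 : y v ≠ c := fun e => hy ⟨(v, c), h2, e⟩
      have : b = c := by
        revert g1 g2
        cases y v <;> cases b <;> cases c <;> simp
      rw [this]
    rw [← pow_add, ← hc, card_sdiff_add_card_eq_card (subset_univ _), card_univ]
  · push Not at h
    rw [filter_eq_empty_iff.2 (by simpa using h)]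
    simp

end Vale.Agent.N336
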