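import Mathlib.Tactic
import Mathlib.Order.Lattice.Nat

/-!
Depth-three OR-AND-OR circuits and the measure `S3`.
-/

namespace Vale.Agent.N336

/-- An input of a bottom gate: a variable, a negated variable or a constant. -/
inductive Input (n : ℕ) : Type
  | pos (i : Fin n)
  | neg (i : Fin n)
  | const (c : Bool)

/-- The value of an input at the point `x`. -/
def Input.eval {n : ℕ} (x : Fin n → Bool) : Input n → Bool
  | Input.pos i => x i
  | Input.neg i => !x i
  | Input.const c => c

/-- A depth-three OR-AND-OR circuit on `n` variables with unbounded fan-in and fan-out: `nb` bottom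
OR gates (gate `i` reads the inputs in `bot i`), `nm` middle AND gates (gate `j` reads the bottom
gates in `mid j`) and one top OR gate (it reads the middle gates in `top`). -/
structure Circuit (n : ℕ) where
  /-- number of bottom gates -/
  nb : ℕ
  /-- number of middle gates -/
  nm : ℕ
  /-- the inputs read by a bottom gate -/
  bot : Fin nb → Set (Input n)
  /-- the bottom gates read by a middle gate -/
  mid : Fin nm → Set (Fin nb)
  /-- the middle gates read by the top gate -/
  top : Set (Fin nm)

/-- The total number of gates: bottom, middle and top. -/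
def Circuit.size {n : ℕ} (C : Circuit n) : ℕ := C.nb + C.nm + 1

/-- The top gate outputs `1` at `x`. -/
def Circuit.Accepts {n : ℕ} (C : Circuit n) (x : Fin n → Bool) : Prop :=
  ∃ j ∈ C.top, ∀ i ∈ C.mid j, ∃ a ∈ C.bot i, a.eval x = true

/-- The circuit computes `f`. -/
def Circuit.Computes {n : ℕ} (C : Circuit n) (f : (Fin n → Bool) → Bool) : Prop :=
  ∀ x, f x = true ↔ C.Accepts x

/-- The least number of gates of a depth-three OR-AND-OR circuit computing `f`. -/
noncomputable def S3 {n : ℕ} (f : (Fin n → Bool) → Bool) : ℕ :=
  sInf {s | ∃ C : Circuit n, C.Computes f ∧ C.size = s}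

end Vale.Agent.N336
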