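import Mathlib

/-!
Moments of sums of limited-independence signs, and a union bound.
-/

namespace Vale.Agent.N336.Moment

open Finset

variable {W Y : Type*} [Fintype W] [Fintype Y] [DecidableEq Y]

/-- Maps with a small image are few. -/
theorem card_small_image_le (r : ℕ) (hr : 1 ≤ r) :
    ((univ : Finset (Fin (2 * r) → Y)).filter (fun f => (univ.image f).card ≤ r)).card ≤
      Fintype.card Y ^ r * r ^ (2 * r) := by
  classical
  have hsub : (univ : Finset (Fin (2 * r) → Y)).filter (fun f => (univ.image f).card ≤ r) ⊆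
      (univ : Finset ((Fin r → Y) × (Fin (2 * r) → Fin r))).image (fun p => p.1 ∘ p.2) := by
    intro f hf
    rw [mem_filter] at hf
    obtain ⟨e⟩ : Nonempty ((univ.image f : Finset Y) ↪ Fin r) :=
      Function.Embedding.nonempty_of_card_le (by rw [Fintype.card_coe, Fintype.card_fin]; exact hf.2)
    have : Nonempty (univ.image f : Finset Y) :=
      ⟨⟨f ⟨0, by omega⟩, mem_image_of_mem _ (mem_univ _)⟩⟩
    refine mem_image.2 ⟨(fun i => (Function.invFun e i).1,
      fun j => e ⟨f j, mem_image_of_mem _ (mem_univ _)⟩), mem_univ _, ?_⟩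
    funext j
    simp only [Function.comp_apply]
    rw [Function.leftInverse_invFun e.injective]
  refine (card_le_card hsub).trans (card_image_le.trans ?_)
  simp

omit [Fintype W] [Fintype Y] in
theorem prod_comp_eq_prod_odd {n : ℕ} (c : Y → ℝ) (hc : ∀ y, c y ^ 2 = 1) (f : Fin n → Y) :
    ∏ j, c (f j) = ∏ y ∈ (univ.image f).filter
      (fun y => Odd (univ.filter (fun j => f j = y)).card), c y := by
  rw [Finset.prod_comp c f, prod_filter]
  refine prod_congr rfl fun y _ => ?_
  split_ifs with h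
  · obtain ⟨k, hk⟩ := h
    rw [hk, pow_succ, pow_mul, hc, one_pow, one_mul]
  · obtain ⟨k, hk⟩ := Nat.not_odd_iff_even.1 h
    rw [hk, ← two_mul, pow_mul, hc, one_pow]

omit [Fintype W] [Fintype Y] in
theorem card_image_le_of_even {r : ℕ} (f : Fin (2 * r) → Y)
    (h : (univ.image f).filter (fun y => Odd (univ.filter (fun j => f j = y)).card) = ∅) :
    (univ.image f).card ≤ r := by
  have h1 := card_eq_sum_card_image f (univ : Finset (Fin (2 * r)))
  have h2 : (univ.image f).card • 2 ≤
      ∑ y ∈ univ.image f, (univ.filter (fun j => f j = y)).card := by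
    refine card_nsmul_le_sum _ _ _ fun y hy => ?_
    have h3 := Nat.not_odd_iff_even.1 (filter_eq_empty_iff.1 h hy)
    obtain ⟨j, -, rfl⟩ := mem_image.1 hy
    have h4 : 0 < (univ.filter (fun i => f i = f j)).card :=
      card_pos.2 ⟨j, mem_filter.2 ⟨mem_univ _, rfl⟩⟩
    obtain ⟨k, hk⟩ := h3
    omega
  rw [← h1, card_univ, Fintype.card_fin, smul_eq_mul] at h2
  omega

/-- The moment bound. -/
theorem moment (χ : W → Y → ℝ) (hχ : ∀ w y, χ w y ^ 2 = 1) {r : ℕ} (hr : 1 ≤ r)
    (hind : ∀ A : Finset Y, A.Nonempty → A.card ≤ 2 * r → ∑ w, ∏ y ∈ A, χ w y = 0)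
    (P : Finset Y) :
    ∑ w, (∑ y ∈ P, χ w y) ^ (2 * r) ≤
      Fintype.card W * ((Fintype.card Y : ℝ) ^ r * (r : ℝ) ^ (2 * r)) := by
  classical
  simp only [Finset.sum_pow']
  rw [sum_comm]
  have h1 : ∀ f : Fin (2 * r) → Y, ∑ w, ∏ j, χ w (f j) ≤
      if (univ.image f).card ≤ r then (Fintype.card W : ℝ) else 0 := by
    intro f
    simp only [prod_comp_eq_prod_odd _ (hχ _) f]
    rcases ((univ.image f).filter
      (fun y => Odd (univ.filter (fun j => f j = y)).card)).eq_empty_or_nonempty with h | h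
    · rw [if_pos (card_image_le_of_even f h), h]
      simp
    · rw [hind _ h ((card_filter_le _ _).trans (card_image_le.trans (by simp)))]
      split_ifs
      · positivity
      · exact le_rfl
  refine (sum_le_sum fun f _ => h1 f).trans ?_
  refine (sum_le_sum_of_subset_of_nonneg (subset_univ _) fun f _ _ => ?_).trans ?_
  · split_ifs
    · positivity
    · exact le_rfl
  · rw [← sum_filter, sum_const, nsmul_eq_mul, mul_comm]
    refine mul_le_mul_of_nonneg_left ?_ (Nat.cast_nonneg _)
    exact_mod_cast card_small_image_le r hr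

/-- The union bound: some seed is good for all sets of a small family. -/
theorem exists_good [Nonempty W] (χ : W → Y → ℝ) (hχ : ∀ w y, χ w y ^ 2 = 1) {r : ℕ}
    (hr : 1 ≤ r)
    (hind : ∀ A : Finset Y, A.Nonempty → A.card ≤ 2 * r → ∑ w, ∏ y ∈ A, χ w y = 0)
    {ι : Type*} (I : Finset ι) (P : ι → Finset Y) {B : ℝ} (hB : 0 ≤ B)
    (h : I.card * ((Fintype.card Y : ℝ) ^ r * (r : ℝ) ^ (2 * r)) < B ^ (2 * r)) :
    ∃ w, ∀ i ∈ I, |∑ y ∈ P i, χ w y| ≤ B := by
  by_contra hne
  push Not at hne
  have h1 : ∀ w, B ^ (2 * r) ≤ ∑ i ∈ I, (∑ y ∈ P i, χ w y) ^ (2 * r) := by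
    intro w
    obtain ⟨i, hi, hlt⟩ := hne w
    refine le_trans ?_ (single_le_sum (f := fun i => (∑ y ∈ P i, χ w y) ^ (2 * r))
      (fun i _ => (even_two_mul r).pow_nonneg _) hi)
    rw [← (even_two_mul r).pow_abs (∑ y ∈ P i, χ w y)]
    exact pow_le_pow_left₀ hB hlt.le _
  have h2 : (Fintype.card W : ℝ) * B ^ (2 * r) ≤
      ∑ w, ∑ i ∈ I, (∑ y ∈ P i, χ w y) ^ (2 * r) := by
    have := card_nsmul_le_sum univ _ _ fun w _ => h1 w
    simpa using this
  rw [sum_comm] at h2
  have h3 := sum_le_card_nsmul I _ _ fun i _ => moment χ hχ hr hind (P i)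
  rw [nsmul_eq_mul] at h3
  have h4 : (0 : ℝ) < Fintype.card W := by exact_mod_cast Fintype.card_pos
  nlinarith [mul_lt_mul_of_pos_left h h4]

/-- The number of small subsets. -/
theorem card_small_subsets_le {X : Type*} [DecidableEq X] (Z : Finset X) (s : ℕ) :
    (Z.powerset.filter (fun F => F.card ≤ s)).card ≤ (Z.card + 1) ^ s := by
  induction s with
  | zero =>
    refine (card_le_card (t := {∅}) fun F hF => ?_).trans (by simp)
    rw [mem_filter] at hF
    simpa using hF.2
  | succ s ih =>
    have hsub : Z.powerset.filter (fun F => F.card ≤ s + 1) ⊆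
        Z.powerset.filter (fun F => F.card ≤ s) ∪
          (Z ×ˢ Z.powerset.filter (fun F => F.card ≤ s)).image (fun p => insert p.1 p.2) := by
      intro F hF
      rw [mem_filter, mem_powerset] at hF
      rcases F.eq_empty_or_nonempty with rfl | ⟨x, hx⟩
      · exact mem_union_left _ (by simp)
      · refine mem_union_right _ (mem_image.2 ⟨(x, F.erase x), ?_, insert_erase hx⟩)
        rw [mem_product, mem_filter, mem_powerset, card_erase_of_mem hx]
        exact ⟨hF.1 hx, (erase_subset _ _).trans hF.1, by omega⟩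
    refine (card_le_card hsub).trans ((card_union_le _ _).trans ?_)
    have := (card_image_le (s := Z ×ˢ Z.powerset.filter (fun F => F.card ≤ s))
      (f := fun p => insert p.1 p.2)).trans (card_product _ _).le
    rw [pow_succ]
    nlinarith [Nat.mul_le_mul_left Z.card ih]

end Vale.Agent.N336.Moment
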