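import Mathlib

/-!
A disjoint form of the sparsification lemma with geometric constants.
-/

namespace Vale.Agent.N336.Sparse

open Finset

variable {U : Type*} [DecidableEq U]

/-- The members of `F` that are minimal under inclusion. -/
def mins (F : Finset (Finset U)) : Finset (Finset U) :=
  F.filter (fun c => ∀ d ∈ F, d ⊆ c → d = c)

/-- The thresholds. -/
def th (al K : ℕ) : ℕ → ℕ
  | 0 => 1
  | i + 1 => al * K ^ i

/-- The number of members of `F` of size `j` containing `J`. -/
def cnt (F : Finset (Finset U)) (j : ℕ) (J : Finset U) : ℕ :=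
  (F.filter (fun c => c.card = j ∧ J ⊆ c)).card

/-- The number of members of `F` of size `i`. -/
def lev (F : Finset (Finset U)) (i : ℕ) : ℕ := (F.filter (fun c => c.card = i)).card

/-- The weight of a family. -/
def wt (K k : ℕ) (A : Finset (Finset U)) : ℕ := ∑ c ∈ A, K ^ (k - c.card)

theorem mem_mins {F : Finset (Finset U)} {c : Finset U} :
    c ∈ mins F ↔ c ∈ F ∧ ∀ d ∈ F, d ⊆ c → d = c := Finset.mem_filter

theorem mins_subset (F : Finset (Finset U)) : mins F ⊆ F := Finset.filter_subset _ _

theorem exists_mins_subset {F : Finset (Finset U)} {c : Finset U} (hc : c ∈ F) :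
    ∃ d ∈ mins F, d ⊆ c := by
  obtain ⟨d, hd, hmin⟩ := Finset.exists_min_image (F.filter (· ⊆ c)) Finset.card
    ⟨c, Finset.mem_filter.2 ⟨hc, Finset.Subset.refl c⟩⟩
  rw [Finset.mem_filter] at hd
  refine ⟨d, mem_mins.2 ⟨hd.1, fun e he hed => ?_⟩, hd.2⟩
  exact Finset.eq_of_subset_of_card_le hed (hmin e (Finset.mem_filter.2 ⟨he, hed.trans hd.2⟩))

theorem one_le_th {al K : ℕ} (hal : 1 ≤ al) (hK : 1 ≤ K) (i : ℕ) : 1 ≤ th al K i := by
  cases i with
  | zero => exact le_rfl
  | succ i => exact Nat.mul_pos hal (Nat.pow_pos hK)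

theorem cnt_mono {F G : Finset (Finset U)} (h : F ⊆ G) (j : ℕ) (J : Finset U) :
    cnt F j J ≤ cnt G j J :=
  Finset.card_le_card (Finset.filter_subset_filter _ h)

theorem cnt_union_le (F G : Finset (Finset U)) (j : ℕ) (J : Finset U) :
    cnt (F ∪ G) j J ≤ cnt F j J + cnt G j J := by
  unfold cnt
  rw [Finset.filter_union]
  exact Finset.card_union_le _ _

theorem cnt_le_one (F : Finset (Finset U)) {j : ℕ} {J : Finset U} (h : j ≤ J.card) :
    cnt F j J ≤ 1 := by
  refine Finset.card_le_one.2 fun a ha b hb => ?_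
  rw [Finset.mem_filter] at ha hb
  rw [← Finset.eq_of_subset_of_card_le ha.2.2 (by omega),
    ← Finset.eq_of_subset_of_card_le hb.2.2 (by omega)]

theorem lev_succ_le [Fintype U] (F : Finset (Finset U)) (i b : ℕ)
    (h : ∀ x : U, cnt F (i + 1) {x} ≤ b) : lev F (i + 1) ≤ Fintype.card U * b := by
  have hsub : F.filter (fun c => c.card = i + 1) ⊆
      Finset.univ.biUnion (fun x : U => F.filter (fun c => c.card = i + 1 ∧ {x} ⊆ c)) := by
    intro c hc
    rw [Finset.mem_filter] at hc
    obtain ⟨x, hx⟩ : c.Nonempty := Finset.card_pos.1 (by omega)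
    exact Finset.mem_biUnion.2 ⟨x, Finset.mem_univ _,
      Finset.mem_filter.2 ⟨hc.1, hc.2, Finset.singleton_subset_iff.2 hx⟩⟩
  refine (Finset.card_le_card hsub).trans (Finset.card_biUnion_le.trans ?_)
  refine (Finset.sum_le_card_nsmul _ _ b fun x _ => h x).trans ?_
  simp

omit [DecidableEq U] in
theorem sum_eq_sum_lev (F : Finset (Finset U)) (n : ℕ) (h : ∀ c ∈ F, c.card < n) (g : ℕ → ℕ) :
    ∑ c ∈ F, g c.card = ∑ i ∈ Finset.range n, lev F i * g i := by
  rw [← Finset.sum_fiberwise_of_maps_to (s := F) (t := Finset.range n) (g := Finset.card)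
    (fun c hc => Finset.mem_range.2 (h c hc))]
  refine Finset.sum_congr rfl fun i _ => ?_
  rw [Finset.sum_congr rfl (g := fun _ => g i)
    (fun c hc => by rw [(Finset.mem_filter.1 hc).2])]
  simp [lev]

/-- The invariant of the set `A` of added clauses. -/
structure Inv (al K k : ℕ) (φ A : Finset (Finset U)) : Prop where
  ne : ∀ c ∈ A, c.Nonempty
  wd : ∀ c ∈ A, c.card < k
  i1 : ∀ j J, J.Nonempty → cnt (mins (φ ∪ A) ∩ A) j J ≤ 2 * th al K (j - J.card)
  i2 : ∀ i, lev (A \ mins (φ ∪ A)) i ≤ ∑ h ∈ Finset.range i, lev A h * (2 * th al K (i - h))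

theorem inv_empty (al K k : ℕ) (φ : Finset (Finset U)) : Inv al K k φ ∅ where
  ne := by simp
  wd := by simp
  i1 := by simp [cnt]
  i2 := by simp [lev]

section Step

variable {al K k : ℕ} {φ A N : Finset (Finset U)} {j₀ : ℕ}

theorem new_notMem {F : Finset (Finset U)} {D : Finset U} (h : ∃ c ∈ mins F, D ⊂ c) :
    ∀ e ∈ F, ¬ e ⊆ D := by
  intro e he hed
  obtain ⟨c, hc, hDc⟩ := h
  have := (mem_mins.1 hc).2 e he (hed.trans hDc.subset)
  subst this
  exact hDc.not_subset hed

theorem disjoint_new (hsub : ∀ D ∈ N, ∃ c ∈ mins (φ ∪ A), D ⊂ c) : Disjoint A N := by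
  rw [Finset.disjoint_left]
  intro D hA hN
  exact new_notMem (hsub D hN) D (Finset.mem_union_right _ hA) (Finset.Subset.refl D)

theorem lev_union (hd : Disjoint A N) (hcard : ∀ D ∈ N, D.card = j₀) (h : ℕ) :
    lev (A ∪ N) h = lev A h + if h = j₀ then N.card else 0 := by
  unfold lev
  rw [Finset.filter_union, Finset.card_union_of_disjoint (Finset.disjoint_filter_filter hd)]
  congr 1
  split_ifs with hh
  · rw [Finset.filter_true_of_mem fun D hD => (hcard D hD).trans hh.symm]
  · rw [Finset.filter_false_of_mem fun D hD hD' => hh (hD'.symm.trans (hcard D hD))]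
    rfl

theorem Inv.step (hA : Inv al K k φ A) (hφ : ∀ c ∈ φ, c.card ≤ k) (hj : 1 ≤ j₀)
    (hcard : ∀ D ∈ N, D.card = j₀) (hsub : ∀ D ∈ N, ∃ c ∈ mins (φ ∪ A), D ⊂ c)
    (ha : ∀ J : Finset U, J.Nonempty → cnt (mins (φ ∪ A)) j₀ J ≤ th al K (j₀ - J.card))
    (hb : ∀ J : Finset U, J.Nonempty → cnt N j₀ J ≤ th al K (j₀ - J.card)) :
    Inv al K k φ (A ∪ N) := by
  have hd : Disjoint A N := disjoint_new hsub
  have hold : ∀ c ∈ mins (φ ∪ (A ∪ N)), c ∈ φ ∪ A → c ∈ mins (φ ∪ A) := by
    intro c hc hc'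
    refine mem_mins.2 ⟨hc', fun d hd hdc => (mem_mins.1 hc).2 d ?_ hdc⟩
    rw [← Finset.union_assoc]
    exact Finset.mem_union_left _ hd
  have hnew : ∀ D ∈ N, D ∈ mins (φ ∪ (A ∪ N)) := by
    intro D hD
    refine mem_mins.2 ⟨Finset.mem_union_right _ (Finset.mem_union_right _ hD), fun e he hed => ?_⟩
    rw [← Finset.union_assoc, Finset.mem_union] at he
    rcases he with he | he
    · exact absurd hed (new_notMem (hsub D hD) e he)
    · exact Finset.eq_of_subset_of_card_le hed (by rw [hcard D hD, hcard e he])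
  refine ⟨?_, ?_, ?_, ?_⟩
  · intro c hc
    rcases Finset.mem_union.1 hc with h | h
    · exact hA.ne c h
    · exact Finset.card_pos.1 (by rw [hcard c h]; exact hj)
  · intro c hc
    rcases Finset.mem_union.1 hc with h | h
    · exact hA.wd c h
    · obtain ⟨e, he, hce⟩ := hsub c h
      have h1 := Finset.card_lt_card hce
      rcases Finset.mem_union.1 (mins_subset _ he) with h2 | h2
      · exact h1.trans_le (hφ e h2)
      · exact h1.trans (hA.wd e h2)
  · intro j J hJ
    by_cases hjj : j = j₀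
    · subst hjj
      have hs : mins (φ ∪ (A ∪ N)) ∩ (A ∪ N) ⊆ mins (φ ∪ A) ∪ N := by
        intro c hc
        rw [Finset.mem_inter] at hc
        rcases Finset.mem_union.1 hc.2 with h | h
        · exact Finset.mem_union_left _ (hold c hc.1 (Finset.mem_union_right _ h))
        · exact Finset.mem_union_right _ h
      refine (cnt_mono hs j J).trans ((cnt_union_le _ _ j J).trans ?_)
      have := ha J hJ
      have := hb J hJ
      omega
    · refine le_trans (Finset.card_le_card ?_) (hA.i1 j J hJ)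
      intro c hc
      rw [Finset.mem_filter, Finset.mem_inter] at hc ⊢
      rcases Finset.mem_union.1 hc.1.2 with h | h
      · exact ⟨⟨hold c hc.1.1 (Finset.mem_union_right _ h), h⟩, hc.2⟩
      · exact absurd (hc.2.1.symm.trans (hcard c h)) hjj
  · intro i
    have hsum : ∑ h ∈ Finset.range i, lev (A ∪ N) h * (2 * th al K (i - h)) =
        ∑ h ∈ Finset.range i, lev A h * (2 * th al K (i - h)) +
          if j₀ < i then N.card * (2 * th al K (i - j₀)) else 0 := by
      simp only [lev_union hd hcard, add_mul, Finset.sum_add_distrib, ite_mul, zero_mul,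
        Finset.sum_ite_eq', Finset.mem_range]
    have hs : ((A ∪ N) \ mins (φ ∪ (A ∪ N))).filter (fun c => c.card = i) ⊆
        (A \ mins (φ ∪ A)).filter (fun c => c.card = i) ∪
          (if j₀ < i then N.biUnion (fun D =>
            (mins (φ ∪ A) ∩ A).filter (fun c => c.card = i ∧ D ⊆ c)) else ∅) := by
      intro c hc
      rw [Finset.mem_filter, Finset.mem_sdiff] at hc
      obtain ⟨⟨h1, h2⟩, h3⟩ := hc
      have hcA : c ∈ A := by
        rcases Finset.mem_union.1 h1 with h | h
        · exact h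
        · exact absurd (hnew c h) h2
      by_cases hcm : c ∈ mins (φ ∪ A)
      · refine Finset.mem_union_right _ ?_
        have : ∃ e ∈ φ ∪ (A ∪ N), e ⊆ c ∧ e ≠ c := by
          by_contra hne
          push Not at hne
          exact h2 (mem_mins.2 ⟨Finset.mem_union_right _ h1, hne⟩)
        obtain ⟨e, he, hec, hne⟩ := this
        rw [← Finset.union_assoc, Finset.mem_union] at he
        rcases he with he | he
        · exact absurd ((mem_mins.1 hcm).2 e he hec) hne
        · have hlt : j₀ < i := by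
            rw [← hcard e he, ← h3]
            exact Finset.card_lt_card (Finset.ssubset_iff_subset_ne.2 ⟨hec, hne⟩)
          rw [if_pos hlt]
          exact Finset.mem_biUnion.2 ⟨e, he,
            Finset.mem_filter.2 ⟨Finset.mem_inter.2 ⟨hcm, hcA⟩, h3, hec⟩⟩
      · exact Finset.mem_union_left _ (Finset.mem_filter.2 ⟨Finset.mem_sdiff.2 ⟨hcA, hcm⟩, h3⟩)
    rw [hsum]
    refine (Finset.card_le_card hs).trans ((Finset.card_union_le _ _).trans
      (Nat.add_le_add (hA.i2 i) ?_))
    split_ifs with hlt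
    · refine Finset.card_biUnion_le.trans ?_
      refine (Finset.sum_le_card_nsmul _ _ (2 * th al K (i - j₀)) fun D hD => ?_).trans ?_
      · have := hA.i1 i D (Finset.card_pos.1 (by rw [hcard D hD]; exact hj))
        rwa [hcard D hD] at this
      · simp
    · simp

end Step

section Bounds

variable [Fintype U] {al k : ℕ} {φ A : Finset (Finset U)}

omit [Fintype U] in
theorem Inv.lev_zero {K : ℕ} (hA : Inv al K k φ A) : lev A 0 = 0 := by
  unfold lev
  rw [Finset.card_eq_zero, Finset.filter_eq_empty_iff]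
  intro c hc h
  exact (hA.ne c hc).ne_empty (Finset.card_eq_zero.1 h)

theorem Inv.lev_le (hA : Inv al (2 * al * k) k φ A) (i : ℕ) :
    lev A (i + 1) ≤ Fintype.card U * (2 * al * k) ^ i := by
  induction i using Nat.strong_induction_on with
  | _ i ih =>
    rcases i with _ | i
    · refine (lev_succ_le A 0 1 fun x => cnt_le_one _ (by simp)).trans ?_
      simp
    by_cases hik : k ≤ i + 2
    · have : lev A (i + 1 + 1) = 0 := by
        unfold lev
        rw [Finset.card_eq_zero, Finset.filter_eq_empty_iff]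
        intro c hc h
        have := hA.wd c hc
        omega
      omega
    set K := 2 * al * k with hK
    set u := Fintype.card U with hu
    have h1 : lev A (i + 2) ≤ lev (mins (φ ∪ A) ∩ A) (i + 2) + lev (A \ mins (φ ∪ A)) (i + 2) := by
      unfold lev
      refine le_trans (Finset.card_le_card ?_) (Finset.card_union_le _ _)
      intro c hc
      rw [Finset.mem_filter] at hc
      by_cases hcm : c ∈ mins (φ ∪ A)
      · exact Finset.mem_union_left _
          (Finset.mem_filter.2 ⟨Finset.mem_inter.2 ⟨hcm, hc.1⟩, hc.2⟩)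
      · exact Finset.mem_union_right _
          (Finset.mem_filter.2 ⟨Finset.mem_sdiff.2 ⟨hc.1, hcm⟩, hc.2⟩)
    have h2 : lev (mins (φ ∪ A) ∩ A) (i + 2) ≤ u * (2 * (al * K ^ i)) := by
      refine lev_succ_le _ (i + 1) _ fun x => ?_
      have := hA.i1 (i + 2) {x} (Finset.singleton_nonempty x)
      simpa [th] using this
    have h3 : lev (A \ mins (φ ∪ A)) (i + 2) ≤ (i + 1) * (u * (2 * (al * K ^ i))) := by
      refine (hA.i2 (i + 2)).trans ?_
      rw [Finset.sum_range_succ', hA.lev_zero, zero_mul, add_zero]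
      refine (Finset.sum_le_card_nsmul _ _ (u * (2 * (al * K ^ i))) fun h hh => ?_).trans ?_
      · rw [Finset.mem_range] at hh
        have e1 : i + 2 - (h + 1) = (i - h) + 1 := by omega
        have e2 : K ^ i = K ^ h * K ^ (i - h) := by
          rw [← pow_add]
          congr 1
          omega
        rw [e1, th, e2]
        calc lev A (h + 1) * (2 * (al * K ^ (i - h)))
            ≤ u * K ^ h * (2 * (al * K ^ (i - h))) := Nat.mul_le_mul_right _ (ih h hh)
          _ = u * (2 * (al * (K ^ h * K ^ (i - h)))) := by ring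
      · simp
    calc lev A (i + 2) ≤ u * (2 * (al * K ^ i)) + (i + 1) * (u * (2 * (al * K ^ i))) :=
          h1.trans (Nat.add_le_add h2 h3)
      _ = (i + 2) * (u * (2 * (al * K ^ i))) := by ring
      _ ≤ k * (u * (2 * (al * K ^ i))) := Nat.mul_le_mul_right _ (by omega)
      _ = u * K ^ (i + 1) := by rw [pow_succ, hK]; ring

theorem Inv.wt_le (hA : Inv al (2 * al * k) k φ A) :
    wt (2 * al * k) k A ≤ k * (Fintype.card U * (2 * al * k) ^ (k - 1)) := by
  rw [wt, sum_eq_sum_lev A k hA.wd (fun i => (2 * al * k) ^ (k - i))]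
  refine (Finset.sum_le_card_nsmul _ _ (Fintype.card U * (2 * al * k) ^ (k - 1))
    fun i hi => ?_).trans ?_
  · rw [Finset.mem_range] at hi
    rcases i with _ | i
    · rw [hA.lev_zero]
      simp
    · have e : (2 * al * k) ^ (k - 1) = (2 * al * k) ^ i * (2 * al * k) ^ (k - (i + 1)) := by
        rw [← pow_add]
        congr 1
        omega
      rw [e, ← mul_assoc]
      exact Nat.mul_le_mul_right _ (hA.lev_le i)
  · simp

theorem Inv.card_le (hal : 1 ≤ al) (hk : 1 ≤ k) (hA : Inv al (2 * al * k) k φ A) :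
    A.card ≤ Fintype.card U * (2 * al * k) ^ (k - 1) := by
  have hK : k ≤ 2 * al * k := Nat.le_mul_of_pos_left _ (by omega)
  have h1 : A.card * (2 * al * k) ≤ wt (2 * al * k) k A := by
    have := Finset.card_nsmul_le_sum A (fun c => (2 * al * k) ^ (k - c.card)) (2 * al * k)
      fun c hc => Nat.le_self_pow (by have := hA.wd c hc; omega) _
    simpa [wt] using this
  have h2 := hA.wt_le
  have h3 : A.card * (2 * al * k) ≤
      (Fintype.card U * (2 * al * k) ^ (k - 1)) * (2 * al * k) := by
    refine h1.trans (h2.trans ?_)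
    rw [mul_comm k]
    exact Nat.mul_le_mul_left _ hK
  exact Nat.le_of_mul_le_mul_right h3 (by omega)

theorem card_le_of_noflower (hal : 1 ≤ al) (hk : 1 ≤ k) {M : Finset (Finset U)}
    (hM : ∀ c ∈ M, c.card ≤ k)
    (h : ∀ j (J : Finset U), J.Nonempty → cnt M j J ≤ th al (2 * al * k) (j - J.card)) :
    M.card ≤ Fintype.card U * (2 * al * k) ^ k + 1 := by
  have hK : 1 ≤ 2 * al * k := Nat.mul_pos (by omega) hk
  have h0 := sum_eq_sum_lev M (k + 1) (fun c hc => Nat.lt_succ_of_le (hM c hc)) (fun _ => 1)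
  simp only [Finset.sum_const, smul_eq_mul, mul_one] at h0
  rw [h0, Finset.sum_range_succ']
  refine Nat.add_le_add ?_ ?_
  · refine (Finset.sum_le_card_nsmul _ _ (Fintype.card U * (al * (2 * al * k) ^ (k - 1)))
      fun i hi => ?_).trans ?_
    · rw [Finset.mem_range] at hi
      refine lev_succ_le M i _ fun x => (h (i + 1) {x} (Finset.singleton_nonempty x)).trans ?_
      rw [Finset.card_singleton, Nat.add_sub_cancel]
      rcases i with _ | i
      · exact Nat.mul_pos hal (Nat.pow_pos hK)
      · exact Nat.mul_le_mul_left _ (Nat.pow_le_pow_right hK (by omega))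
    · obtain ⟨k', rfl⟩ : ∃ k', k = k' + 1 := ⟨k - 1, by omega⟩
      rw [Finset.card_range, smul_eq_mul, Nat.add_sub_cancel, pow_succ]
      nlinarith [Nat.zero_le (Fintype.card U * (2 * al * (k' + 1)) ^ k' * (al * (k' + 1)))]
  · have := cnt_le_one M (j := 0) (J := ∅) (Nat.zero_le _)
    simpa [cnt, lev] using this

end Bounds

theorem exists_flower {al K : ℕ} {M : Finset (Finset U)}
    (h : ¬ ∀ j (J : Finset U), J.Nonempty → cnt M j J ≤ th al K (j - J.card)) :
    ∃ (j : ℕ) (H : Finset U), H.Nonempty ∧ H.card < j ∧ th al K (j - H.card) < cnt M j H ∧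
      (∀ j' < j, ∀ J : Finset U, J.Nonempty → cnt M j' J ≤ th al K (j' - J.card)) ∧
      (∀ J : Finset U, H.card < J.card → cnt M j J ≤ th al K (j - J.card)) := by
  classical
  push Not at h
  have hlt : ∀ j (J : Finset U), th al K (j - J.card) < cnt M j J → J.card < j := by
    intro j J hJ
    by_contra hle
    have h1 := cnt_le_one M (j := j) (J := J) (by omega)
    rw [show j - J.card = 0 by omega, th] at hJ
    omega
  let j := Nat.find h
  have hj : ∃ J : Finset U, J.Nonempty ∧ th al K (j - J.card) < cnt M j J := Nat.find_spec h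
  have hex : ∃ r, ∃ J : Finset U, J.Nonempty ∧ th al K (j - J.card) < cnt M j J ∧
      j - J.card = r := by
    obtain ⟨J, h1, h2⟩ := hj
    exact ⟨_, J, h1, h2, rfl⟩
  obtain ⟨H, h1, h2, h3⟩ := Nat.find_spec hex
  refine ⟨j, H, h1, hlt j H h2, h2, ?_, ?_⟩
  · intro j' hj' J hJ
    by_contra hc
    exact Nat.find_min h hj' ⟨J, hJ, not_le.1 hc⟩
  · intro J hJ
    by_contra hc
    have h4 := hlt j J (not_le.1 hc)
    refine Nat.find_min hex (m := j - J.card) (by omega) ⟨J, ?_, not_le.1 hc, rfl⟩
    exact Finset.card_pos.1 (by omega)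

section Sums

variable {Ω : Type*} [Fintype Ω]

open Classical in
/-- The sum of `f` over the points that satisfy all clauses of `ψ` and falsify all literals
of `R`. -/
noncomputable def S (val : Ω → U → Prop) (f : Ω → ℝ) (ψ : Finset (Finset U)) (R : Finset U) : ℝ :=
  ∑ z ∈ Finset.univ.filter
    (fun z => (∀ c ∈ ψ, ∃ x ∈ c, val z x) ∧ ∀ x ∈ R, ¬ val z x), f z

variable (val : Ω → U → Prop) (f : Ω → ℝ)

theorem S_mins (F : Finset (Finset U)) (R : Finset U) : S val f (mins F) R = S val f F R := by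
  classical
  unfold S
  refine Finset.sum_congr (Finset.filter_congr fun z _ => and_congr_left fun _ => ?_)
    fun _ _ => rfl
  constructor
  · intro h c hc
    obtain ⟨d, hd, hdc⟩ := exists_mins_subset hc
    obtain ⟨x, hx, hv⟩ := h d hd
    exact ⟨x, hdc hx, hv⟩
  · intro h c hc
    exact h c (mins_subset F hc)

theorem S_split (F G : Finset (Finset U)) (hG : G ⊆ F) (R H : Finset U) :
    S val f F R = S val f (F ∪ {H}) R + S val f (F ∪ G.image (· \ H)) (R ∪ H) := by
  classical
  unfold S
  rw [← Finset.sum_filter_add_sum_filter_not _ (fun z => ∃ x ∈ H, val z x), Finset.filter_filter,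
    Finset.filter_filter]
  congr 1
  · refine Finset.sum_congr (Finset.filter_congr fun z _ => ?_) fun _ _ => rfl
    constructor
    · rintro ⟨⟨h1, h2⟩, h3⟩
      refine ⟨fun c hc => ?_, h2⟩
      rcases Finset.mem_union.1 hc with h | h
      · exact h1 c h
      · rw [Finset.mem_singleton.1 h]
        exact h3
    · rintro ⟨h1, h2⟩
      exact ⟨⟨fun c hc => h1 c (Finset.mem_union_left _ hc), h2⟩,
        h1 H (Finset.mem_union_right _ (Finset.mem_singleton_self H))⟩
  · refine Finset.sum_congr (Finset.filter_congr fun z _ => ?_) fun _ _ => rfl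
    constructor
    · rintro ⟨⟨h1, h2⟩, h3⟩
      refine ⟨fun c hc => ?_, fun x hx => ?_⟩
      · rcases Finset.mem_union.1 hc with h | h
        · exact h1 c h
        · obtain ⟨d, hd, rfl⟩ := Finset.mem_image.1 h
          obtain ⟨x, hx, hv⟩ := h1 d (hG hd)
          exact ⟨x, Finset.mem_sdiff.2 ⟨hx, fun hxH => h3 ⟨x, hxH, hv⟩⟩, hv⟩
      · rcases Finset.mem_union.1 hx with h | h
        · exact h2 x h
        · exact fun hv => h3 ⟨x, h, hv⟩
    · rintro ⟨h1, h2⟩
      exact ⟨⟨fun c hc => h1 c (Finset.mem_union_left _ hc),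
        fun x hx => h2 x (Finset.mem_union_left _ hx)⟩,
        fun ⟨x, hx, hv⟩ => h2 x (Finset.mem_union_right _ hx) hv⟩

variable [Fintype U]

theorem sparsify_aux {al k : ℕ} (hal : 1 ≤ al) (hk : 1 ≤ k) {η B : ℝ} (hη : 0 < η) (hη1 : η ≤ 1)
    (hB : ∀ (ψ : Finset (Finset U)) (R : Finset U), (∀ c ∈ ψ, c.card ≤ k) →
      ψ.card ≤ Fintype.card U * (2 * al * k) ^ k + 1 → |S val f ψ R| ≤ B)
    {φ : Finset (Finset U)} (hφ : ∀ c ∈ φ, c.card ≤ k) (s : ℕ) :
    ∀ (A : Finset (Finset U)) (q : ℕ) (R : Finset U), Inv al (2 * al * k) k φ A →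
      Fintype.card U * (2 * al * k) ^ (k - 1) ≤ A.card + s →
      q * (al * (2 * al * k) ^ (k - 1)) ≤ wt (2 * al * k) k A →
      |S val f (φ ∪ A) R| ≤ B * (1 + η) ^ s * η ^ q / η ^ (k * Fintype.card U / al) := by
  have hK : 1 ≤ 2 * al * k := Nat.mul_pos (by omega) hk
  have hB0 : 0 ≤ B := (abs_nonneg _).trans (hB ∅ ∅ (by simp) (by simp))
  have hwid : ∀ A : Finset (Finset U), Inv al (2 * al * k) k φ A →
      ∀ c ∈ mins (φ ∪ A), c.card ≤ k := by
    intro A hA c hc
    rcases Finset.mem_union.1 (mins_subset _ hc) with h | h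
    · exact hφ c h
    · exact (hA.wd c h).le
  have hleaf : ∀ (s : ℕ) (A : Finset (Finset U)) (q : ℕ) (R : Finset U),
      Inv al (2 * al * k) k φ A →
      q * (al * (2 * al * k) ^ (k - 1)) ≤ wt (2 * al * k) k A →
      (∀ j (J : Finset U), J.Nonempty →
        cnt (mins (φ ∪ A)) j J ≤ th al (2 * al * k) (j - J.card)) →
      |S val f (φ ∪ A) R| ≤ B * (1 + η) ^ s * η ^ q / η ^ (k * Fintype.card U / al) := by
    intro s A q R hA hq hno
    have h1 := hB _ R (hwid A hA) (card_le_of_noflower hal hk (hwid A hA) hno)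
    rw [S_mins] at h1
    have h2 : q ≤ k * Fintype.card U / al := by
      rw [Nat.le_div_iff_mul_le hal]
      have h3 := hq.trans hA.wt_le
      rw [← mul_assoc, ← mul_assoc] at h3
      exact Nat.le_of_mul_le_mul_right h3 (Nat.pow_pos hK)
    refine h1.trans ?_
    rw [le_div_iff₀ (pow_pos hη _), mul_assoc]
    refine mul_le_mul_of_nonneg_left ?_ hB0
    have h4 : η ^ (k * Fintype.card U / al) ≤ η ^ q := pow_le_pow_of_le_one hη.le hη1 h2
    have h5 : 1 ≤ (1 + η) ^ s := one_le_pow₀ (by linarith)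
    nlinarith [pow_pos hη q]
  have hheart : ∀ (A : Finset (Finset U)) (j : ℕ) (H : Finset U), Inv al (2 * al * k) k φ A →
      H.Nonempty → H.card < j → th al (2 * al * k) (j - H.card) < cnt (mins (φ ∪ A)) j H →
      (∀ j' < j, ∀ J : Finset U, J.Nonempty →
        cnt (mins (φ ∪ A)) j' J ≤ th al (2 * al * k) (j' - J.card)) →
      Inv al (2 * al * k) k φ (A ∪ {H}) ∧ Disjoint A {H} := by
    intro A j H hA hH hHj hfl hmin
    have hsub : ∀ D ∈ ({H} : Finset (Finset U)), ∃ c ∈ mins (φ ∪ A), D ⊂ c := by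
      intro D hD
      rw [Finset.mem_singleton.1 hD]
      obtain ⟨c, hc⟩ := Finset.card_pos.1 (lt_of_le_of_lt (Nat.zero_le _) hfl)
      rw [Finset.mem_filter] at hc
      refine ⟨c, hc.1, Finset.ssubset_iff_subset_ne.2 ⟨hc.2.2, fun h => ?_⟩⟩
      have := hc.2.1
      rw [← h] at this
      omega
    refine ⟨hA.step hφ (j₀ := H.card) hH.card_pos (fun D hD => by rw [Finset.mem_singleton.1 hD])
      hsub (hmin _ hHj) fun J _ => le_trans ?_ (one_le_th hal hK _), disjoint_new hsub⟩
    exact (Finset.card_filter_le _ _).trans (Finset.card_singleton H).le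
  induction s with
  | zero =>
    intro A q R hA hs hq
    by_cases hno : ∀ j (J : Finset U), J.Nonempty →
        cnt (mins (φ ∪ A)) j J ≤ th al (2 * al * k) (j - J.card)
    · exact hleaf 0 A q R hA hq hno
    · obtain ⟨j, H, hH, hHj, hfl, hmin, -⟩ := exists_flower hno
      obtain ⟨h1, h2⟩ := hheart A j H hA hH hHj hfl hmin
      have h3 := h1.card_le hal hk
      rw [Finset.card_union_of_disjoint h2, Finset.card_singleton] at h3
      omega
  | succ s ih =>
    intro A q R hA hs hq
    by_cases hno : ∀ j (J : Finset U), J.Nonempty →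
        cnt (mins (φ ∪ A)) j J ≤ th al (2 * al * k) (j - J.card)
    · exact hleaf (s + 1) A q R hA hq hno
    obtain ⟨j, H, hH, hHj, hfl, hmin, hmax⟩ := exists_flower hno
    obtain ⟨h1, h2⟩ := hheart A j H hA hH hHj hfl hmin
    set G := (mins (φ ∪ A)).filter (fun c => c.card = j ∧ H ⊆ c) with hG
    set N := G.image (· \ H) with hN
    have hHpos := hH.card_pos
    have hNcard : ∀ D ∈ N, D.card = j - H.card := by
      intro D hD
      obtain ⟨c, hc, rfl⟩ := Finset.mem_image.1 hD
      rw [Finset.mem_filter] at hc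
      rw [Finset.card_sdiff_of_subset hc.2.2, hc.2.1]
    have hNsub : ∀ D ∈ N, ∃ c ∈ mins (φ ∪ A), D ⊂ c := by
      intro D hD
      have hDc := hNcard D hD
      obtain ⟨c, hc, rfl⟩ := Finset.mem_image.1 hD
      rw [Finset.mem_filter] at hc
      refine ⟨c, hc.1, Finset.ssubset_iff_subset_ne.2 ⟨Finset.sdiff_subset, fun h => ?_⟩⟩
      rw [h, hc.2.1] at hDc
      omega
    have hNb : ∀ J : Finset U, J.Nonempty →
        cnt N (j - H.card) J ≤ th al (2 * al * k) (j - H.card - J.card) := by
      intro J hJ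
      by_cases hd : Disjoint H J
      · have h3 := hmax (H ∪ J) (by
          rw [Finset.card_union_of_disjoint hd]
          have := hJ.card_pos
          omega)
        rw [Finset.card_union_of_disjoint hd, ← Nat.sub_sub] at h3
        refine le_trans ?_ h3
        refine le_trans (Finset.card_le_card ?_) (Finset.card_image_le (f := (· \ H)))
        intro D hD
        rw [Finset.mem_filter] at hD
        obtain ⟨c, hc, rfl⟩ := Finset.mem_image.1 hD.1
        rw [Finset.mem_filter] at hc
        exact Finset.mem_image.2 ⟨c, Finset.mem_filter.2 ⟨hc.1, hc.2.1,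
          Finset.union_subset hc.2.2 (hD.2.2.trans Finset.sdiff_subset)⟩, rfl⟩
      · have : cnt N (j - H.card) J = 0 := by
          unfold cnt
          rw [Finset.card_eq_zero, Finset.filter_eq_empty_iff]
          intro D hD hD'
          obtain ⟨c, hc, rfl⟩ := Finset.mem_image.1 hD
          exact hd (Finset.disjoint_of_subset_right hD'.2 Finset.disjoint_sdiff)
        omega
    have h3 : Inv al (2 * al * k) k φ (A ∪ N) :=
      hA.step hφ (j₀ := j - H.card) (by omega) hNcard hNsub (hmin _ (by omega)) hNb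
    have h4 : Disjoint A N := disjoint_new hNsub
    have hNG : N.card = G.card := by
      refine Finset.card_image_of_injOn fun c hc d hd hcd => ?_
      have hc' := (Finset.mem_filter.1 (Finset.mem_coe.1 hc)).2.2
      have hd' := (Finset.mem_filter.1 (Finset.mem_coe.1 hd)).2.2
      rw [← Finset.sdiff_union_of_subset hc', ← Finset.sdiff_union_of_subset hd']
      exact congrArg (· ∪ H) hcd
    have hNth : th al (2 * al * k) (j - H.card) < N.card := by
      rw [hNG]
      exact hfl
    have hjk : j - H.card ≤ k := by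
      obtain ⟨D, hD⟩ := Finset.card_pos.1 (lt_of_le_of_lt (Nat.zero_le _) hNth)
      have := h3.wd D (Finset.mem_union_right _ hD)
      rw [hNcard D hD] at this
      omega
    have hwt : (q + 1) * (al * (2 * al * k) ^ (k - 1)) ≤ wt (2 * al * k) k (A ∪ N) := by
      rw [wt, Finset.sum_union h4, add_mul, one_mul]
      refine Nat.add_le_add hq ?_
      rw [Finset.sum_congr rfl (g := fun _ => (2 * al * k) ^ (k - (j - H.card)))
        (fun D hD => by rw [hNcard D hD]), Finset.sum_const, smul_eq_mul]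
      obtain ⟨i, hi⟩ : ∃ i, j - H.card = i + 1 := ⟨j - H.card - 1, by omega⟩
      rw [hi] at hNth hjk ⊢
      have e : (2 * al * k) ^ (k - 1) = (2 * al * k) ^ i * (2 * al * k) ^ (k - (i + 1)) := by
        rw [← pow_add]
        congr 1
        omega
      rw [e, ← mul_assoc]
      exact Nat.mul_le_mul_right _ hNth.le
    have b1 := ih (A ∪ {H}) q R h1
      (by rw [Finset.card_union_of_disjoint h2, Finset.card_singleton]; omega)
      (hq.trans (Finset.sum_le_sum_of_subset Finset.subset_union_left))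
    have b2 := ih (A ∪ N) (q + 1) (R ∪ H) h3
      (by rw [Finset.card_union_of_disjoint h4]; omega) hwt
    rw [S_split val f (φ ∪ A) G ((Finset.filter_subset _ _).trans (mins_subset _)) R H,
      Finset.union_assoc, Finset.union_assoc]
    refine (abs_add_le _ _).trans ((add_le_add b1 b2).trans_eq ?_)
    ring

/-- Sparsification: a bound for sums over sparse formulas gives a bound for all formulas of the
same width. -/
theorem sparsify {al k : ℕ} (hal : 1 ≤ al) (hk : 1 ≤ k) {η B : ℝ} (hη : 0 < η) (hη1 : η ≤ 1)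
    (hB : ∀ (ψ : Finset (Finset U)) (R : Finset U), (∀ c ∈ ψ, c.card ≤ k) →
      ψ.card ≤ Fintype.card U * (2 * al * k) ^ k + 1 → |S val f ψ R| ≤ B)
    (φ : Finset (Finset U)) (hφ : ∀ c ∈ φ, c.card ≤ k) (R : Finset U) :
    |S val f φ R| ≤ B * (1 + η) ^ (Fintype.card U * (2 * al * k) ^ (k - 1)) /
      η ^ (k * Fintype.card U / al) := by
  simpa using sparsify_aux val f hal hk hη hη1 hB hφ _ ∅ 0 R (inv_empty _ _ _ _)
    (Nat.le_add_left _ _) (by simp)

end Sums

end Vale.Agent.N336.Sparse
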