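import Mathlib
import Vale.Agent.N336.Cnf
import Vale.Agent.N336.Sparse

/-!
Sparsification in the vocabulary of CNFs, with explicit constants.
-/

namespace Vale.Agent.N336

open Finset

variable {V : Type*} [Fintype V] [DecidableEq V]

theorem S_eq_sum_sols (χ : (V → Bool) → ℝ) (ψ : Finset (Clause V)) (R : Finset (V × Bool)) :
    Sparse.S (fun (y : V → Bool) (l : V × Bool) => y l.1 = l.2) χ ψ R =
      ∑ y ∈ sols (ψ ∪ R.image fun l => ({(l.1, !l.2)} : Clause V)), χ y := by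
  unfold Sparse.S
  refine Finset.sum_congr ?_ fun _ _ => rfl
  ext y
  simp only [Finset.mem_filter, mem_sols]
  constructor
  · rintro ⟨-, h1, h2⟩ C hC
    rcases Finset.mem_union.1 hC with h | h
    · exact h1 C h
    · obtain ⟨l, hl, rfl⟩ := Finset.mem_image.1 h
      refine ⟨_, Finset.mem_singleton_self _, ?_⟩
      have : ¬ y l.1 = l.2 := h2 l hl
      show y l.1 = !l.2
      revert this
      cases y l.1 <;> cases l.2 <;> simp
  · intro h
    refine ⟨Finset.mem_univ _, fun C hC => h C (Finset.mem_union_left _ hC), fun l hl hv => ?_⟩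
    obtain ⟨l', hl', hv'⟩ := h _ (Finset.mem_union_right _ (Finset.mem_image_of_mem _ hl))
    rw [Finset.mem_singleton.1 hl'] at hv'
    simp only [hv] at hv'
    exact absurd hv' (by cases l.2 <;> simp)

/-- Sparsification for CNFs with free parameters. -/
theorem sparsify_param (χ : (V → Bool) → ℝ) {al k : ℕ} (hal : 1 ≤ al) (hk : 1 ≤ k) {η B : ℝ}
    (hη : 0 < η) (hη1 : η ≤ 1)
    (h : ∀ F : Finset (Clause V),
      F.card ≤ 2 * Fintype.card V * (2 * al * k) ^ k + 1 + 2 * Fintype.card V →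
      (∀ C ∈ F, C.card ≤ k) → |∑ y ∈ sols F, χ y| ≤ B)
    (F : Finset (Clause V)) (hF : ∀ C ∈ F, C.card ≤ k) :
    |∑ y ∈ sols F, χ y| ≤ B * (1 + η) ^ (2 * Fintype.card V * (2 * al * k) ^ (k - 1)) /
      η ^ (k * (2 * Fintype.card V) / al) := by
  have hu : Fintype.card (V × Bool) = 2 * Fintype.card V := by
    rw [Fintype.card_prod, Fintype.card_bool, mul_comm]
  have h1 := Sparse.sparsify (fun (y : V → Bool) (l : V × Bool) => y l.1 = l.2) χ hal hk hη hη1
    (B := B) ?_ F hF ∅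
  · rw [S_eq_sum_sols, hu] at h1
    simpa using h1
  · intro ψ R hψ hc
    rw [S_eq_sum_sols]
    refine h _ ?_ ?_
    · refine (Finset.card_union_le _ _).trans (Nat.add_le_add (hu ▸ hc) ?_)
      exact Finset.card_image_le.trans (hu ▸ Finset.card_le_univ R)
    · intro C hC
      rcases Finset.mem_union.1 hC with h' | h'
      · exact hψ C h'
      · obtain ⟨l, -, rfl⟩ := Finset.mem_image.1 h'
        simpa using hk

theorem sparsify_factor_le (m : ℕ) {k : ℕ} (hk : 1 ≤ k) :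
    (1 + (((2048 * k ^ 4 : ℕ) : ℝ) ^ k)⁻¹) ^ (2 * m * (2048 * k ^ 4) ^ (k - 1)) /
      ((((2048 * k ^ 4 : ℕ) : ℝ) ^ k)⁻¹) ^ (k * (2 * m) / (1024 * k ^ 3)) ≤
        (2 : ℝ) ^ ((m : ℝ) / 20) := by
  set K : ℕ := 2048 * k ^ 4 with hK
  have hk4 : 1 ≤ k ^ 4 := Nat.pow_pos hk
  have hK1 : 2048 ≤ K := by omega
  have hKR : (2048 : ℝ) ≤ K := by exact_mod_cast hK1
  have hKpos : (0 : ℝ) < K := by linarith
  have hm : (0 : ℝ) ≤ m := Nat.cast_nonneg m
  have hlog : (0.69 : ℝ) < Real.log 2 := by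
    have := Real.log_two_gt_d9
    linarith
  have h1 : (1 + ((K : ℝ) ^ k)⁻¹) ^ (2 * m * K ^ (k - 1)) ≤ (2 : ℝ) ^ ((m : ℝ) / 100) := by
    have e1 : 1 + ((K : ℝ) ^ k)⁻¹ ≤ Real.exp (((K : ℝ) ^ k)⁻¹) := by
      have := Real.add_one_le_exp (((K : ℝ) ^ k)⁻¹)
      linarith
    refine (pow_le_pow_left₀ (by positivity) e1 _).trans ?_
    rw [← Real.exp_nat_mul, Real.rpow_def_of_pos two_pos, Real.exp_le_exp]
    obtain ⟨k', rfl⟩ : ∃ k', k = k' + 1 := ⟨k - 1, by omega⟩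
    rw [Nat.add_sub_cancel]
    push_cast
    have e2 : 2 * (m : ℝ) * (K : ℝ) ^ k' * ((K : ℝ) ^ (k' + 1))⁻¹ = 2 * m / K := by
      field_simp
      ring
    rw [e2, div_le_iff₀ hKpos]
    have e3 : 0.69 * ((m : ℝ) / 100) ≤ Real.log 2 * ((m : ℝ) / 100) :=
      mul_le_mul_of_nonneg_right hlog.le (by positivity)
    have e4 : 0.69 * ((m : ℝ) / 100) * 2048 ≤ Real.log 2 * ((m : ℝ) / 100) * K :=
      mul_le_mul e3 hKR (by norm_num) (le_trans (by positivity) e3)
    linarith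
  have h2 : K ≤ 2 ^ (15 * k) := by
    have e1 : k ^ 4 ≤ (2 ^ k) ^ 4 := Nat.pow_le_pow_left (Nat.lt_two_pow_self).le 4
    have e2 : 2 ^ (15 * k) = 2 ^ (11 * k) * (2 ^ k) ^ 4 := by
      rw [← pow_mul, ← pow_add]
      congr 1
      ring
    have e3 : 2 ^ 11 ≤ 2 ^ (11 * k) := Nat.pow_le_pow_right (by norm_num) (by omega)
    rw [e2, hK]
    exact Nat.mul_le_mul (by norm_num at e3 ⊢; exact e3) e1
  set p : ℕ := k * (2 * m) / (1024 * k ^ 3) with hp
  have h3 : p * (1024 * k ^ 3) ≤ k * (2 * m) := Nat.div_mul_le_self _ _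
  have h4 : 512 * (k * k * p) ≤ m := by
    have : k * (2 * (512 * (k * k * p))) ≤ k * (2 * m) := by
      refine le_trans (le_of_eq ?_) h3
      ring
    have := Nat.le_of_mul_le_mul_left this hk
    omega
  have h5 : ((K : ℝ) ^ k) ^ p ≤ (2 : ℝ) ^ ((m : ℝ) / 25) := by
    have e1 : ((K : ℝ) ^ k) ^ p ≤ (2 : ℝ) ^ (15 * (k * k * p)) := by
      have : (K ^ k) ^ p ≤ ((2 ^ (15 * k)) ^ k) ^ p :=
        Nat.pow_le_pow_left (Nat.pow_le_pow_left h2 k) p
      rw [← pow_mul (2 : ℕ), ← pow_mul (2 : ℕ),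
        show 15 * k * k * p = 15 * (k * k * p) by ring] at this
      exact_mod_cast this
    refine e1.trans ?_
    rw [← Real.rpow_natCast]
    refine Real.rpow_le_rpow_of_exponent_le one_le_two ?_
    have : ((512 * (k * k * p) : ℕ) : ℝ) ≤ m := by exact_mod_cast h4
    push_cast at this ⊢
    nlinarith
  rw [inv_pow, div_inv_eq_mul, show (m : ℝ) / 20 = m / 100 + m / 25 by ring,
    Real.rpow_add two_pos]
  exact mul_le_mul h1 h5 (by positivity) (by positivity)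

/-- Sparsification for CNFs: a bound `B` on the sums over CNFs of width at most `k` with at most
`4 m (2048 k ^ 4) ^ k + 1` clauses gives the bound `B * 2 ^ (m / 20)` for all CNFs of width at
most `k`, where `m` is the number of variables. -/
theorem sparsify (χ : (V → Bool) → ℝ) {k : ℕ} (hk : 1 ≤ k) {B : ℝ}
    (h : ∀ F : Finset (Clause V), F.card ≤ 4 * Fintype.card V * (2048 * k ^ 4) ^ k + 1 →
      (∀ C ∈ F, C.card ≤ k) → |∑ y ∈ sols F, χ y| ≤ B)
    (F : Finset (Clause V)) (hF : ∀ C ∈ F, C.card ≤ k) :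
    |∑ y ∈ sols F, χ y| ≤ B * (2 : ℝ) ^ ((Fintype.card V : ℝ) / 20) := by
  have hk3 : 1 ≤ k ^ 3 := Nat.pow_pos hk
  have hk4 : 1 ≤ k ^ 4 := Nat.pow_pos hk
  have e : 2 * (1024 * k ^ 3) * k = 2048 * k ^ 4 := by ring
  have hKk : 1 ≤ (2048 * k ^ 4) ^ k := Nat.pow_pos (by omega)
  have hKR : (1 : ℝ) ≤ ((2048 * k ^ 4 : ℕ) : ℝ) ^ k := by exact_mod_cast hKk
  have hB : 0 ≤ B := (abs_nonneg _).trans (h ∅ (by simp) (by simp))
  have h1 := sparsify_param χ (al := 1024 * k ^ 3) (by omega) hk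
    (η := (((2048 * k ^ 4 : ℕ) : ℝ) ^ k)⁻¹) (B := B) (by positivity)
    (inv_le_one_of_one_le₀ hKR) ?_ F hF
  · rw [e, mul_div_assoc] at h1
    exact h1.trans (mul_le_mul_of_nonneg_left (sparsify_factor_le _ hk) hB)
  · intro G hG hw
    refine h G (hG.trans ?_) hw
    rw [e]
    nlinarith [Nat.mul_le_mul_left (2 * Fintype.card V) hKk]

end Vale.Agent.N336
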