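import Mathlib
import Vale.Agent.N336.Moment
import Vale.Agent.N336.SparseCnf

/-!
A family of Boolean functions with limited independence given by integer arithmetic, and a
member of it that has small correlation with all CNFs of bounded width.
-/

namespace Vale.Agent.N336

open Finset

/-- The number with binary digits `y`. -/
def num {m : ℕ} (y : Fin m → Bool) : ℕ := ∑ i, (y i).toNat * 2 ^ (i : ℕ)

/-- Bit number `L - 1` of the value at `Y` of the polynomial with coefficients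
`a 0, …, a (t - 1)`. -/
def hfun (t L : ℕ) (a : ℕ → ℕ) (Y : ℕ) : Bool :=
  (∑ j ∈ Finset.range t, a j * Y ^ j).testBit (L - 1)

namespace Family

theorem num_eq {m : ℕ} (y : Fin m → Bool) :
    num y = (finFunctionFinEquiv (fun i => (⟨(y i).toNat, Bool.toNat_lt _⟩ : Fin 2)) : ℕ) := by
  rw [finFunctionFinEquiv_apply]
  rfl

theorem num_lt {m : ℕ} (y : Fin m → Bool) : num y < 2 ^ m := by
  rw [num_eq]
  exact Fin.is_lt _

theorem num_injective {m : ℕ} : Function.Injective (num : (Fin m → Bool) → ℕ) := by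
  intro y y' h
  rw [num_eq, num_eq] at h
  have h1 := finFunctionFinEquiv.injective (Fin.ext h)
  funext i
  have h2 := congrArg Fin.val (congrFun h1 i)
  revert h2
  cases y i <;> cases y' i <;> simp

/-- The top bit of a residue. -/
def top (L : ℕ) (s : ZMod (2 ^ L)) : Bool := s.val.testBit (L - 1)

/-- Evaluation of a polynomial given by its coefficients. -/
def ev {t L : ℕ} (a : Fin t → ZMod (2 ^ L)) (Y : ℕ) : ZMod (2 ^ L) :=
  ∑ j, a j * (Y : ZMod (2 ^ L)) ^ (j : ℕ)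

theorem top_natCast {L : ℕ} (hL : 1 ≤ L) (n : ℕ) :
    top L (n : ZMod (2 ^ L)) = n.testBit (L - 1) := by
  rw [top, ZMod.val_natCast, Nat.testBit_mod_two_pow]
  simp [show L - 1 < L by omega]

theorem top_add {L : ℕ} (hL : 1 ≤ L) (s : ZMod (2 ^ L)) :
    top L (s + 2 ^ (L - 1)) = !top L s := by
  have h : s + 2 ^ (L - 1) = ((2 ^ (L - 1) + s.val : ℕ) : ZMod (2 ^ L)) := by
    push_cast
    rw [ZMod.natCast_zmod_val, add_comm]
  rw [h, top_natCast hL, Nat.testBit_two_pow_add_eq, top]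

theorem ev_add {t L : ℕ} (a d : Fin t → ZMod (2 ^ L)) (Y : ℕ) :
    ev (a + d) Y = ev a Y + ev d Y := by
  simp [ev, add_mul, sum_add_distrib]

theorem exists_shift {ι : Type*} [DecidableEq ι] {m t : ℕ} (hm : 1 ≤ m) (g : ι → ℕ)
    (hg : Function.Injective g) (hlt : ∀ y, g y < 2 ^ m) (A : Finset ι) (hA : A.card ≤ t)
    {y₀ : ι} (h₀ : y₀ ∈ A) :
    ∃ d : Fin t → ZMod (2 ^ (m * t)), ev d (g y₀) = 2 ^ (m * t - 1) ∧
      ∀ y ∈ A.erase y₀, ev d (g y) = 0 := by
  set Q : Polynomial ℤ := ∏ y ∈ A.erase y₀, (Polynomial.X - Polynomial.C (g y : ℤ)) with hQ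
  have hApos := card_pos.2 ⟨y₀, h₀⟩
  have hcard : (A.erase y₀).card = A.card - 1 := card_erase_of_mem h₀
  have hdeg : Q.natDegree < t := by
    rw [hQ, Polynomial.natDegree_finsetProd_X_sub_C_eq_card]
    omega
  have hev : ∀ z : ℤ, Q.eval z = ∏ y ∈ A.erase y₀, (z - g y) := by
    intro z
    simp [hQ, Polynomial.eval_prod]
  have hne : (Q.eval (g y₀ : ℤ)).natAbs ≠ 0 := by
    rw [Int.natAbs_ne_zero, hev, prod_ne_zero_iff]
    intro y hy h
    have : g y₀ = g y := by exact_mod_cast sub_eq_zero.1 h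
    exact (mem_erase.1 hy).1 (hg this).symm
  have hle : (Q.eval (g y₀ : ℤ)).natAbs ≤ 2 ^ (m * t - 1) := by
    rw [hev, ← Int.natAbsHom_apply, map_prod]
    refine (prod_le_pow_card _ _ (2 ^ m) fun y _ => ?_).trans ?_
    · have h1 := hlt y
      have h2 := hlt y₀
      rw [Int.natAbsHom_apply]
      omega
    · rw [← pow_mul]
      refine Nat.pow_le_pow_right two_pos ?_
      obtain ⟨t', rfl⟩ : ∃ t', t = t' + 1 := ⟨t - 1, by omega⟩
      have : m * (A.erase y₀).card ≤ m * t' := Nat.mul_le_mul_left _ (by omega)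
      rw [Nat.mul_succ]
      omega
  obtain ⟨v, o, ho, hvo⟩ := Nat.exists_eq_two_pow_mul_odd hne
  have hv : v ≤ m * t - 1 := by
    have h1 : 2 ^ v ≤ 2 ^ (m * t - 1) :=
      le_trans (Nat.le_mul_of_pos_right _ ho.pos) (hvo ▸ hle)
    exact (Nat.pow_le_pow_iff_right (by norm_num)).1 h1
  have key : ∀ Y : ℕ, ev (fun j : Fin t =>
      ((2 ^ (m * t - 1 - v) * Q.coeff j : ℤ) : ZMod (2 ^ (m * t)))) Y =
      ((2 ^ (m * t - 1 - v) * Q.eval (Y : ℤ) : ℤ) : ZMod (2 ^ (m * t))) := by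
    intro Y
    rw [Polynomial.eval_eq_sum_range' hdeg, ev, mul_sum, Finset.sum_range]
    push_cast
    exact sum_congr rfl fun j _ => by ring
  refine ⟨_, (key _).trans ?_, fun y hy => (key _).trans ?_⟩
  · obtain ⟨q, hq⟩ : ∃ q : ℤ, Q.eval (g y₀ : ℤ) = 2 ^ v * (2 * q + 1) := by
      obtain ⟨q, rfl⟩ := ho
      rcases Int.natAbs_eq (Q.eval (g y₀ : ℤ)) with h | h
      · exact ⟨q, by rw [h, hvo]; push_cast; ring⟩
      · exact ⟨-q - 1, by rw [h, hvo]; push_cast; ring⟩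
    have h1 : 1 ≤ m * t := Nat.mul_pos hm (by omega)
    have h2 : (2 : ZMod (2 ^ (m * t))) ^ (m * t - 1) * 2 = 0 := by
      rw [← pow_succ, Nat.sub_add_cancel h1]
      exact_mod_cast ZMod.natCast_self (2 ^ (m * t))
    rw [hq, ← mul_assoc, ← pow_add, Nat.sub_add_cancel hv]
    push_cast
    linear_combination (q : ZMod (2 ^ (m * t))) * h2
  · rw [hev, prod_eq_zero hy (sub_self _)]
    simp

theorem sum_prod_eq_zero {ι : Type*} [DecidableEq ι] {m t : ℕ} (hm : 1 ≤ m) (g : ι → ℕ)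
    (hg : Function.Injective g) (hlt : ∀ y, g y < 2 ^ m) (A : Finset ι) (hne : A.Nonempty)
    (hA : A.card ≤ t) :
    ∑ a : Fin t → ZMod (2 ^ (m * t)),
      ∏ y ∈ A, (if top (m * t) (ev a (g y)) then (-1 : ℝ) else 1) = 0 := by
  obtain ⟨y₀, h₀⟩ := hne
  obtain ⟨d, hd₀, hd⟩ := exists_shift hm g hg hlt A hA h₀
  have h1 : 1 ≤ m * t := Nat.mul_pos hm (le_trans (card_pos.2 ⟨y₀, h₀⟩) hA)
  have h2 := Equiv.sum_comp (Equiv.addRight d) (fun a : Fin t → ZMod (2 ^ (m * t)) =>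
    ∏ y ∈ A, (if top (m * t) (ev a (g y)) then (-1 : ℝ) else 1))
  have h3 : ∀ a : Fin t → ZMod (2 ^ (m * t)),
      ∏ y ∈ A, (if top (m * t) (ev (a + d) (g y)) then (-1 : ℝ) else 1) =
        -∏ y ∈ A, (if top (m * t) (ev a (g y)) then (-1 : ℝ) else 1) := by
    intro a
    rw [← mul_prod_erase A _ h₀, ← mul_prod_erase A _ h₀, ev_add, hd₀, top_add h1, ← neg_mul]
    congr 1
    · cases top (m * t) (ev a (g y₀)) <;> simp
    · exact prod_congr rfl fun y hy => by rw [ev_add, hd y hy, add_zero]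
  have h4 := (sum_congr rfl fun a (_ : a ∈ univ) => (h3 a).symm).trans h2
  rw [sum_neg_distrib] at h4
  linarith

theorem side_condition {m k r l : ℕ} (hm : 1 ≤ m) (hk : 1 ≤ k) (hr : 1 ≤ r)
    (h1 : 2 * m + 2 ≤ 2 ^ l) (h2 : 15 * l * k * (2048 * k ^ 4) ^ k ≤ r) (h3 : r ^ 6 ≤ 2 ^ m) :
    ((((2 * m + 1) ^ k + 1) ^ (4 * m * (2048 * k ^ 4) ^ k + 1) : ℕ) : ℝ) *
      (((2 ^ m : ℕ) : ℝ) ^ r * (r : ℝ) ^ (2 * r)) <
        ((2 : ℝ) ^ (17 * (m : ℝ) / 20)) ^ (2 * r) := by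
  set Kk : ℕ := (2048 * k ^ 4) ^ k with hKk
  have hK1 : 1 ≤ Kk := Nat.pow_pos (Nat.mul_pos (by norm_num) (Nat.pow_pos hk))
  have e1 : (2 * m + 1) ^ k + 1 ≤ 2 ^ (l * k) := by
    have : (2 * m + 1) ^ k < (2 * m + 2) ^ k := Nat.pow_lt_pow_left (by omega) (by omega)
    rw [pow_mul]
    exact le_trans this (Nat.pow_le_pow_left h1 k)
  have e2 : 3 * (l * k * (4 * m * Kk + 1)) ≤ m * r := by
    have : 4 * m * Kk + 1 ≤ 5 * m * Kk := by nlinarith [Nat.mul_le_mul hm hK1]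
    calc 3 * (l * k * (4 * m * Kk + 1)) ≤ 3 * (l * k * (5 * m * Kk)) := by gcongr
      _ = m * (15 * l * k * Kk) := by ring
      _ ≤ m * r := Nat.mul_le_mul_left _ h2
  have e3 : (((2 * m + 1) ^ k + 1) ^ (4 * m * Kk + 1)) ^ 3 ≤ 2 ^ (m * r) := by
    refine (Nat.pow_le_pow_left (Nat.pow_le_pow_left e1 _) 3).trans ?_
    rw [← pow_mul, ← pow_mul]
    exact Nat.pow_le_pow_right two_pos (by nlinarith)
  have e4 : (r ^ (2 * r)) ^ 3 ≤ 2 ^ (m * r) := by
    rw [← pow_mul, show 2 * r * 3 = 6 * r by ring, pow_mul, pow_mul]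
    exact Nat.pow_le_pow_left h3 r
  have e5 : (((2 * m + 1) ^ k + 1) ^ (4 * m * Kk + 1) * ((2 ^ m) ^ r * r ^ (2 * r))) ^ 3 ≤
      2 ^ (5 * (m * r)) := by
    have e : 2 ^ (5 * (m * r)) = 2 ^ (m * r) * (((2 ^ m) ^ r) ^ 3 * 2 ^ (m * r)) := by
      rw [← pow_mul, ← pow_mul, ← pow_add, ← pow_add]
      congr 1
      ring
    rw [mul_pow, mul_pow, e]
    exact Nat.mul_le_mul e3 (Nat.mul_le_mul_left _ e4)
  refine lt_of_pow_lt_pow_left₀ 3 (by positivity) ?_
  have e6 : (((((2 * m + 1) ^ k + 1) ^ (4 * m * Kk + 1) : ℕ) : ℝ) *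
      (((2 ^ m : ℕ) : ℝ) ^ r * (r : ℝ) ^ (2 * r))) ^ 3 ≤ (2 : ℝ) ^ (5 * (m * r)) := by
    exact_mod_cast e5
  refine e6.trans_lt ?_
  rw [← pow_mul, ← Real.rpow_natCast, ← Real.rpow_natCast, ← Real.rpow_mul (by norm_num)]
  refine Real.rpow_lt_rpow_of_exponent_lt one_lt_two ?_
  have : (0 : ℝ) < (m : ℝ) * r := by exact_mod_cast Nat.mul_pos hm hr
  push_cast
  nlinarith

end Family

open Family in
/-- Some member of the family has small correlation with every CNF of width at most `k`. -/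
theorem exists_seed {m k r l : ℕ} (hm : 1 ≤ m) (hk : 1 ≤ k) (hr : 1 ≤ r)
    (h1 : 2 * m + 2 ≤ 2 ^ l) (h2 : 15 * l * k * (2048 * k ^ 4) ^ k ≤ r) (h3 : r ^ 6 ≤ 2 ^ m) :
    ∃ a : ℕ → ℕ, (∀ j, a j < 2 ^ (m * (2 * r))) ∧
      ∀ F : Finset (Clause (Fin m)), (∀ C ∈ F, C.card ≤ k) →
        |∑ y ∈ sols F, (if hfun (2 * r) (m * (2 * r)) a (num y) then (-1 : ℝ) else 1)| ≤
          (2 : ℝ) ^ (9 * (m : ℝ) / 10) := by
  classical
  set Z : Finset (Clause (Fin m)) :=
    (univ : Finset (Fin m × Bool)).powerset.filter (fun C => C.card ≤ k) with hZ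
  set s : ℕ := 4 * m * (2048 * k ^ 4) ^ k + 1 with hs
  have hZc : Z.card ≤ (2 * m + 1) ^ k := by
    refine (Moment.card_small_subsets_le _ k).trans_eq ?_
    simp [mul_comm]
  have hI : (Z.powerset.filter (fun F => F.card ≤ s)).card ≤ ((2 * m + 1) ^ k + 1) ^ s :=
    (Moment.card_small_subsets_le Z s).trans (Nat.pow_le_pow_left (by omega) s)
  obtain ⟨w, hw⟩ := Moment.exists_good
    (fun (a : Fin (2 * r) → ZMod (2 ^ (m * (2 * r)))) (y : Fin m → Bool) =>
      if top (m * (2 * r)) (ev a (num y)) then (-1 : ℝ) else 1)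
    (fun a y => by split_ifs <;> norm_num) hr
    (fun A hne hA => sum_prod_eq_zero hm num num_injective num_lt A hne hA)
    (Z.powerset.filter (fun F => F.card ≤ s)) sols (B := (2 : ℝ) ^ (17 * (m : ℝ) / 20))
    (by positivity) (by
      refine lt_of_le_of_lt ?_ (side_condition hm hk hr h1 h2 h3)
      rw [Fintype.card_fun, Fintype.card_bool, Fintype.card_fin]
      refine mul_le_mul_of_nonneg_right ?_ (by positivity)
      exact_mod_cast hI)
  have hL : 1 ≤ m * (2 * r) := Nat.mul_pos hm (by omega)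
  refine ⟨fun j => if h : j < 2 * r then (w ⟨j, h⟩).val else 0, fun j => ?_, fun F hF => ?_⟩
  · dsimp only
    split_ifs
    · exact ZMod.val_lt _
    · positivity
  · have he : ∀ Y : ℕ, hfun (2 * r) (m * (2 * r))
        (fun j => if h : j < 2 * r then (w ⟨j, h⟩).val else 0) Y =
        top (m * (2 * r)) (ev w Y) := by
      intro Y
      rw [hfun, ← top_natCast hL, ev, Finset.sum_range]
      congr 1
      push_cast
      refine sum_congr rfl fun j _ => ?_
      rw [dif_pos j.2, ZMod.natCast_zmod_val]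
    simp only [he]
    have h4 := sparsify (V := Fin m)
      (fun y => if top (m * (2 * r)) (ev w (num y)) then (-1 : ℝ) else 1) hk
      (B := (2 : ℝ) ^ (17 * (m : ℝ) / 20)) (fun G hG hGk => hw G (by
        rw [mem_filter, mem_powerset]
        refine ⟨fun C hC => mem_filter.2 ⟨mem_powerset.2 (subset_univ _), hGk C hC⟩, ?_⟩
        simpa using hG)) F hF
    rw [← Real.rpow_add two_pos, Fintype.card_fin] at h4
    refine h4.trans_eq ?_
    congr 1
    ring

end Vale.Agent.N336
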