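import Vale.Agent.N336.Defs
import Vale.Agent.N336.Blocks
import Mathlib.Analysis.SpecialFunctions.Pow.Real
import Mathlib.Analysis.Complex.ExponentialBounds
import Mathlib.Data.List.GetD

/-!
From a correlation bound against narrow CNFs to a lower bound for depth-three circuits.
-/

namespace Vale.Agent.N336

open Finset Vale.Agent.N336.Signed Vale.Agent.N336.Blocks

/-- Every function is a single CNF with at most `2^n` clauses. -/
theorem exists_circuit {n : ℕ} (f : (Fin n → Bool) → Bool) :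
    ∃ C : Circuit n, C.Computes f ∧ C.size = 2 ^ n + 2 := by
  have e : (Fin n → Bool) ≃ Fin (2 ^ n) := Fintype.equivFinOfCardEq (by simp)
  refine ⟨⟨2 ^ n, 1, fun i => {a | a.eval (e.symm i) = false}, fun _ => {i | f (e.symm i) = false},
    Set.univ⟩, fun x => ⟨fun hx => ⟨0, trivial, fun i hi => ?_⟩, ?_⟩, rfl⟩
  · have hne : x ≠ e.symm i := by
      rintro rfl
      simp only [Set.mem_ofPred_eq] at hi
      simp [hi] at hx
    obtain ⟨v, hv⟩ := Function.ne_iff.1 hne
    cases hxv : x v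
    · refine ⟨Input.neg v, ?_, by simp [Input.eval, hxv]⟩
      simp only [Set.mem_ofPred_eq, Input.eval]
      revert hv
      rw [hxv]
      cases e.symm i v <;> simp
    · refine ⟨Input.pos v, ?_, by simp [Input.eval, hxv]⟩
      simp only [Set.mem_ofPred_eq, Input.eval]
      revert hv
      rw [hxv]
      cases e.symm i v <;> simp
  · rintro ⟨j, -, h⟩
    by_contra hx
    obtain ⟨a, ha, h2⟩ := h (e x) (by simpa using hx)
    simp only [Set.mem_ofPred_eq, Equiv.symm_apply_apply] at ha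
    simp [ha] at h2

theorem S3_le {n : ℕ} (f : (Fin n → Bool) → Bool) : S3 f ≤ 2 ^ n + 2 :=
  Nat.sInf_le (exists_circuit f)

theorem exists_optimal {n : ℕ} (f : (Fin n → Bool) → Bool) :
    ∃ C : Circuit n, C.Computes f ∧ C.size = S3 f :=
  Nat.sInf_mem (s := {s | ∃ C : Circuit n, C.Computes f ∧ C.size = s}) ⟨_, exists_circuit f⟩

section general

variable {V : Type*} [DecidableEq V] [Fintype V]

/-- Every coordinate of `Z x` is a constant or a coordinate of `x`. -/
def IsRestriction {n : ℕ} (Z : (V → Bool) → Fin n → Bool) : Prop :=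
  ∀ i, (∃ c, ∀ x, Z x i = c) ∨ ∃ v, ∀ x, Z x i = x v

/-- A bottom gate of a restricted circuit is a clause. -/
theorem exists_clause {n : ℕ} (v₀ : V) {Z : (V → Bool) → Fin n → Bool} (hZ : IsRestriction Z)
    (G : Set (Input n)) : ∃ D : Clause V, ∀ x, (∃ a ∈ G, a.eval (Z x) = true) ↔ sat D x := by
  classical
  refine ⟨univ.filter fun l => ∀ x, x l.1 = l.2 → ∃ a ∈ G, a.eval (Z x) = true, fun x => ⟨?_, ?_⟩⟩
  · rintro ⟨a, ha, h⟩
    have key : ∃ v, ∀ y, y v = x v → a.eval (Z y) = a.eval (Z x) := by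
      have h1 : ∀ i, ∃ v, ∀ y, y v = x v → Z y i = Z x i := by
        intro i
        rcases hZ i with ⟨c, hc⟩ | ⟨v, hv⟩
        · exact ⟨v₀, fun y _ => by rw [hc, hc]⟩
        · exact ⟨v, fun y hy => by rw [hv, hv, hy]⟩
      cases a with
      | pos i => exact h1 i
      | neg i =>
        obtain ⟨v, hv⟩ := h1 i
        exact ⟨v, fun y hy => by simp only [Input.eval, hv y hy]⟩
      | const c => exact ⟨v₀, fun _ _ => rfl⟩
    obtain ⟨v, hv⟩ := key
    exact ⟨(v, x v), mem_filter.2 ⟨mem_univ _, fun y hy => ⟨a, ha, (hv y hy).trans h⟩⟩, rfl⟩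
  · rintro ⟨l, hl, e⟩
    exact (mem_filter.1 hl).2 x e

/-- Truncation of a clause. -/
theorem exists_trunc (k : ℕ) (D : Clause V) : ∃ D' : Clause V, D' ⊆ D ∧ D'.card ≤ k ∧
    (univ.filter fun x => sat D x ∧ ¬ sat D' x).card * 2 ^ k ≤ 2 ^ Fintype.card V := by
  by_cases h : D.card ≤ k
  · exact ⟨D, subset_rfl, h, by simp⟩
  · obtain ⟨D', h1, h2⟩ := exists_subset_card_eq (not_le.1 h).le
    refine ⟨D', h1, h2.le, le_trans ?_ (card_not_sat_mul_le D')⟩
    rw [h2]
    exact Nat.mul_le_mul_right _ (card_le_card fun x hx =>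
      mem_filter.2 ⟨mem_univ _, (mem_filter.1 hx).2.2⟩)

/-- If a small circuit computes `g` under a restriction, the ones of `g` are nearly covered by few
CNFs of width `k` that imply `g`. -/
theorem card_le_of_circuit {n : ℕ} (v₀ : V) {Z : (V → Bool) → Fin n → Bool} (hZ : IsRestriction Z)
    {f : (Fin n → Bool) → Bool} (C : Circuit n) (hC : C.Computes f) (k : ℕ) {X : ℝ}
    (hX : ∀ F : Finset (Clause V), (∀ D ∈ F, D.card ≤ k) → (∀ x ∈ sols F, f (Z x) = true) →
      ((sols F).card : ℝ) ≤ X) :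
    ((univ.filter fun x => f (Z x) = true).card : ℝ)
      ≤ C.nm * X + C.nb * (2 ^ Fintype.card V / 2 ^ k) := by
  classical
  choose D hD using fun i => exists_clause v₀ hZ (C.bot i)
  choose D' h1 h2 h3 using fun i => exists_trunc k (D i)
  set F : Fin C.nm → Finset (Clause V) := fun j => (univ.filter (· ∈ C.mid j)).image D' with hF
  have hsub : (univ.filter fun x => f (Z x) = true) ⊆
      ((univ.filter (· ∈ C.top)).biUnion fun j => sols (F j)) ∪
        univ.biUnion fun i => univ.filter fun x => sat (D i) x ∧ ¬ sat (D' i) x := by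
    intro x hx
    obtain ⟨j, hj, h⟩ := (hC _).1 (mem_filter.1 hx).2
    by_cases hs : x ∈ sols (F j)
    · exact mem_union_left _ (mem_biUnion.2 ⟨j, mem_filter.2 ⟨mem_univ _, hj⟩, hs⟩)
    · rw [mem_sols] at hs
      push Not at hs
      obtain ⟨E, hE, hn⟩ := hs
      obtain ⟨i, hi, rfl⟩ := mem_image.1 hE
      exact mem_union_right _ (mem_biUnion.2 ⟨i, mem_univ _,
        mem_filter.2 ⟨mem_univ _, (hD i x).1 (h i (mem_filter.1 hi).2), hn⟩⟩)
  have hX0 : 0 ≤ X := by
    have := hX {∅} (by simp) (fun x hx => by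
      obtain ⟨l, hl, -⟩ := mem_sols.1 hx ∅ (mem_singleton_self _)
      simp at hl)
    exact le_trans (Nat.cast_nonneg _) this
  have a1 : (((univ.filter (· ∈ C.top)).biUnion fun j => sols (F j)).card : ℝ) ≤ C.nm * X := by
    refine le_trans (Nat.cast_le.2 card_biUnion_le) ?_
    rw [Nat.cast_sum]
    refine le_trans (sum_le_card_nsmul _ _ X fun j hj => hX _ ?_ ?_) ?_
    · intro E hE
      obtain ⟨i, -, rfl⟩ := mem_image.1 hE
      exact h2 i
    · intro x hx
      refine (hC _).2 ⟨j, (mem_filter.1 hj).2, fun i hi => (hD i x).2 (sat_mono (h1 i) ?_)⟩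
      exact mem_sols.1 hx _ (mem_image_of_mem _ (mem_filter.2 ⟨mem_univ _, hi⟩))
    · rw [nsmul_eq_mul]
      have : ((univ.filter (· ∈ C.top)).card : ℝ) ≤ C.nm := by
        exact_mod_cast (card_le_univ _).trans (by simp)
      gcongr
  have a2 : ((univ.biUnion fun i => univ.filter fun x => sat (D i) x ∧ ¬ sat (D' i) x).card : ℝ)
      ≤ C.nb * (2 ^ Fintype.card V / 2 ^ k) := by
    refine le_trans (Nat.cast_le.2 card_biUnion_le) ?_
    rw [Nat.cast_sum]
    refine le_trans (sum_le_card_nsmul _ _ (2 ^ Fintype.card V / 2 ^ k) fun i _ => ?_) (by simp)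
    rw [le_div_iff₀ (by positivity)]
    exact_mod_cast h3 i
  have a3 := (card_le_card hsub).trans (card_union_le _ _)
  have a4 := (Nat.cast_le (α := ℝ)).2 a3
  rw [Nat.cast_add] at a4
  linarith

end general

variable {m b : ℕ} {p : (Fin b → Bool) → Bool}

/-- The width reduction for a CNF given as a set of clauses. -/
theorem blocks_sols (hp : Flips p) {k k' : ℕ} (hk' : 1 ≤ k') (χ : (Fin m → Bool) → ℝ) {B : ℝ}
    (hB : ∀ F : Finset (Clause (Fin m)), (∀ D ∈ F, D.card ≤ k') → |∑ z ∈ sols F, χ z| ≤ B)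
    (F : Finset (Clause (Fin m × Fin b))) (hF : ∀ D ∈ F, D.card ≤ k) {δ : ℝ} (hδ : 0 ≤ δ)
    (hk : (1 + 2 * δ) ^ k ≤ 2 ^ (k' + 1)) :
    (b * δ) ^ m * |∑ x ∈ sols F, χ (par p x)| ≤ B * 2 ^ (m * b) * (1 + b * (δ / 2)) ^ m := by
  have h := blocks hp (S := F.toList.length) hk' χ hB (fun s => F.toList.getD s ∅)
    (fun s hs => hF _ (by
      rw [List.getD_eq_getElem _ _ hs]
      exact mem_toList.1 (List.getElem_mem hs))) hδ hk
  have e : univ.filter (allIn (fun s => F.toList.getD s ∅) (range F.toList.length)) = sols F := by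
    ext x
    rw [mem_sols, mem_filter]
    constructor
    · rintro ⟨-, h⟩ D hD
      obtain ⟨s, hs, rfl⟩ := List.getElem_of_mem (mem_toList.2 hD)
      have := h s (mem_range.2 hs)
      simp only at this
      rwa [List.getD_eq_getElem _ _ hs] at this
    · intro h
      refine ⟨mem_univ _, fun s hs => h _ ?_⟩
      simp only
      rw [List.getD_eq_getElem _ _ (mem_range.1 hs)]
      exact mem_toList.1 (List.getElem_mem _)
  rwa [e] at h

/-- The sign of a bit. -/
def sgn (c : Bool) : ℝ := if c then -1 else 1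

theorem one_add_pow_le {k k' : ℕ} (hk : 0 < k) :
    (1 + 2 * ((k' : ℝ) / (3 * k))) ^ k ≤ 2 ^ (k' + 1) := by
  have hk0 : (0 : ℝ) < k := by exact_mod_cast hk
  have h1 : 1 + 2 * ((k' : ℝ) / (3 * k)) ≤ Real.exp (2 * ((k' : ℝ) / (3 * k))) := by
    linarith [Real.add_one_le_exp (2 * ((k' : ℝ) / (3 * k)))]
  refine (pow_le_pow_left₀ (by positivity) h1 k).trans ?_
  rw [← Real.exp_nat_mul]
  have h2 : (k : ℝ) * (2 * ((k' : ℝ) / (3 * k))) = k' * (2 / 3) := by field_simp
  rw [h2, Real.exp_nat_mul]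
  have h3 : Real.exp (2 / 3) ≤ 2 := by
    rw [← Real.le_log_iff_exp_le (by norm_num)]
    linarith [Real.log_two_gt_d9]
  exact (pow_le_pow_left₀ (by positivity) h3 k').trans
    (pow_le_pow_right₀ (by norm_num) (by omega))

/-- A CNF of width `k ≤ m/20` implying `h ∘ par` has density at most `2^(-m/20)`. -/
theorem card_sols_le (hp : Flips p) {k k' : ℕ} (hk' : 1 ≤ k') (hk : 0 < k) (hkm : 20 * k ≤ m)
    (hb : 9 * m ≤ b * k') (h : (Fin m → Bool) → Bool)
    (hB : ∀ F : Finset (Clause (Fin m)), (∀ D ∈ F, D.card ≤ k') →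
      |∑ z ∈ sols F, sgn (h z)| ≤ (2 : ℝ) ^ ((9 : ℝ) / 10 * m))
    (F : Finset (Clause (Fin m × Fin b))) (hF : ∀ D ∈ F, D.card ≤ k)
    (hh : ∀ x ∈ sols F, h (par p x) = true) :
    ((sols F).card : ℝ) ≤ 2 ^ (m * b) / (2 : ℝ) ^ ((m : ℝ) / 20) := by
  have hk0 : (0 : ℝ) < k := by exact_mod_cast hk
  have h1 := blocks_sols hp hk' (fun z => sgn (h z)) hB F hF (δ := k' / (3 * k)) (by positivity)
    (one_add_pow_le hk)
  rw [sum_congr rfl (g := fun _ => (-1 : ℝ)) (fun x hx => by simp [sgn, hh x hx])] at h1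
  simp only [sum_const, nsmul_eq_mul, mul_neg, mul_one, abs_neg, Nat.abs_cast] at h1
  set w : ℝ := b * (k' / (3 * k)) with hw
  have h2 : 60 ≤ w := by
    rw [hw, ← mul_div_assoc, le_div_iff₀ (by positivity)]
    have : (180 * k : ℕ) ≤ b * k' := by omega
    have : ((180 * k : ℕ) : ℝ) ≤ (b * k' : ℕ) := by exact_mod_cast this
    push_cast at this
    linarith
  have h3 : 1 + b * ((k' : ℝ) / (3 * k) / 2) ≤ w * (31 / 60) := by
    have : b * ((k' : ℝ) / (3 * k) / 2) = w / 2 := by rw [hw]; ring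
    rw [this]
    linarith
  have h4 : (31 / 60 : ℝ) ≤ (2 : ℝ) ^ (-(19 / 20) : ℝ) := by
    rw [← pow_le_pow_iff_left₀ (n := 20) (by norm_num) (by positivity) (by norm_num),
      ← Real.rpow_natCast ((2 : ℝ) ^ (-(19 / 20) : ℝ)), ← Real.rpow_mul (by norm_num)]
    norm_num
  have h5 : (1 + b * ((k' : ℝ) / (3 * k) / 2)) ^ m ≤ w ^ m * (2 : ℝ) ^ (-(19 / 20) * m : ℝ) := by
    rw [Real.rpow_mul (by norm_num), Real.rpow_natCast, ← mul_pow]
    exact pow_le_pow_left₀ (by positivity) (h3.trans (by gcongr)) m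
  have h6 : (0 : ℝ) < w ^ m := by positivity
  have h7 : w ^ m * (sols F).card ≤ w ^ m * (2 ^ (m * b) / (2 : ℝ) ^ ((m : ℝ) / 20)) := by
    refine h1.trans (le_trans (mul_le_mul_of_nonneg_left h5 (by positivity)) (le_of_eq ?_))
    have : (2 : ℝ) ^ ((9 : ℝ) / 10 * m) * (2 : ℝ) ^ (-(19 / 20) * m : ℝ)
        = ((2 : ℝ) ^ ((m : ℝ) / 20))⁻¹ := by
      rw [← Real.rpow_add (by norm_num), ← Real.rpow_neg (by norm_num)]
      congr 1
      ring
    rw [div_eq_mul_inv ((2 : ℝ) ^ (m * b)), ← this]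
    ring
  exact le_of_mul_le_mul_left h7 h6

/-- The function `h ∘ par` has density at least `1/4`. -/
theorem card_true_ge (hp : Flips p) (hb : 0 < b) (hm : 10 ≤ m) (h : (Fin m → Bool) → Bool)
    (hB : |∑ z, sgn (h z)| ≤ (2 : ℝ) ^ ((9 : ℝ) / 10 * m)) :
    (2 : ℝ) ^ (m * b) / 4
      ≤ (univ.filter fun x : Fin m × Fin b → Bool => h (par p x) = true).card := by
  have h1 := total hp hb (fun z => sgn (h z))
  have h2 : ∑ x : Fin m × Fin b → Bool, sgn (h (par p x)) = 2 ^ (m * b) - 2 *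
      (univ.filter fun x : Fin m × Fin b → Bool => h (par p x) = true).card := by
    have : ∀ x : Fin m × Fin b → Bool,
        sgn (h (par p x)) = 1 - 2 * if h (par p x) = true then 1 else 0 := by
      intro x
      unfold sgn
      split_ifs <;> norm_num
    simp only [this]
    rw [sum_sub_distrib, ← mul_sum, sum_boole]
    simp
  have h3 : (2 : ℝ) ^ ((9 : ℝ) / 10 * m) ≤ 2 ^ m / 2 := by
    have : (2 : ℝ) ^ m / 2 = (2 : ℝ) ^ ((m : ℝ) - 1) := by
      rw [Real.rpow_sub (by norm_num), Real.rpow_natCast, Real.rpow_one]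
    rw [this]
    have hm' : (10 : ℝ) ≤ m := by exact_mod_cast hm
    exact Real.rpow_le_rpow_of_exponent_le (by norm_num) (by linarith)
  have h4 := (le_abs_self _).trans (hB.trans h3)
  rw [h2] at h1
  have h5 : (0 : ℝ) < 2 ^ m := by positivity
  have h6 : (0 : ℝ) < 2 ^ (m * b) := by positivity
  have h7 := mul_le_mul_of_nonneg_left h4 h6.le
  rw [← h1] at h7
  nlinarith

/-- **Lower bound.** If `h` has small correlation with all CNFs of width `k'` and `h ∘ par` is a
restriction of `f`, then `f` needs more than `2^s` gates whenever `40 (s + 3) ≤ m`. -/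
theorem lower (hp : Flips p) {k' s : ℕ} (hk' : 1 ≤ k') (hb : 9 * m ≤ b * k')
    (hs : 40 * (s + 3) ≤ m) (h : (Fin m → Bool) → Bool)
    (hB : ∀ F : Finset (Clause (Fin m)), (∀ D ∈ F, D.card ≤ k') →
      |∑ z ∈ sols F, sgn (h z)| ≤ (2 : ℝ) ^ ((9 : ℝ) / 10 * m))
    {n : ℕ} {Z : (Fin m × Fin b → Bool) → Fin n → Bool} (hZ : IsRestriction Z)
    {f : (Fin n → Bool) → Bool} (hf : ∀ x, f (Z x) = h (par p x)) : 2 ^ s < S3 f := by
  obtain ⟨C, hC, hsz⟩ := exists_optimal f
  by_contra hc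
  rw [← hsz, not_lt, Circuit.size] at hc
  have hb0 : 0 < b := by
    rcases Nat.eq_zero_or_pos b with rfl | h0
    · omega
    · exact h0
  have h1 := card_le_of_circuit (⟨⟨0, by omega⟩, ⟨0, hb0⟩⟩ : Fin m × Fin b) hZ C hC (2 * s + 3)
    fun F hF hh => card_sols_le hp hk' (by omega) (by omega) hb h hB F hF
      fun x hx => (hf x).symm.trans (hh x hx)
  have h2 := card_true_ge hp hb0 (by omega) h (by
    have := hB ∅ (by simp)
    have e : sols (∅ : Finset (Clause (Fin m))) = univ := by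
      ext z
      simp [mem_sols]
    rwa [e] at this)
  simp only [hf, Fintype.card_prod, Fintype.card_fin] at h1
  have a1 : (C.nm : ℝ) ≤ 2 ^ s := by exact_mod_cast (show C.nm ≤ 2 ^ s by omega)
  have a2 : (C.nb : ℝ) ≤ 2 ^ s := by exact_mod_cast (show C.nb ≤ 2 ^ s by omega)
  have a3 : (2 : ℝ) ^ (2 * s + 6) ≤ (2 : ℝ) ^ ((m : ℝ) / 20) := by
    rw [← Real.rpow_natCast]
    refine Real.rpow_le_rpow_of_exponent_le (by norm_num) ?_
    have : ((40 * (s + 3) : ℕ) : ℝ) ≤ m := by exact_mod_cast hs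
    push_cast at this ⊢
    linarith
  have hN : (0 : ℝ) < 2 ^ (m * b) := by positivity
  generalize (2 : ℝ) ^ (m * b) = N at h1 h2 hN
  have ht : (1 : ℝ) ≤ 2 ^ s := one_le_pow₀ (by norm_num)
  have b1 : C.nm * (N / (2 : ℝ) ^ ((m : ℝ) / 20)) ≤ 2 ^ s * (N / 2 ^ (2 * s + 6)) := by gcongr
  have b2 : C.nb * (N / (2 : ℝ) ^ (2 * s + 3)) ≤ 2 ^ s * (N / 2 ^ (2 * s + 3)) := by gcongr
  have e1 : (2 : ℝ) ^ s * (N / 2 ^ (2 * s + 6)) = N / (64 * 2 ^ s) := by
    field_simp
    ring
  have e2 : (2 : ℝ) ^ s * (N / 2 ^ (2 * s + 3)) = N / (8 * 2 ^ s) := by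
    field_simp
    ring
  have c1 : N / (64 * 2 ^ s) ≤ N / 64 := by gcongr; linarith
  have c2 : N / (8 * 2 ^ s) ≤ N / 8 := by gcongr; linarith
  linarith

end Vale.Agent.N336
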