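import Mathlib
import Vale.Agent.Lib.PolyTime.TypedTM2
import Vale.Agent.Lib.PolyTime.NatArith2
import Vale.Agent.Lib.PolyTime.Bitwise
import Vale.Agent.Lib.PolyTime.Lists2
import Vale.Agent.N336.Family
import Vale.Agent.N336.Lower

/-!
The explicit language, its polynomial time machine and its depth-three lower bound.
-/

namespace Vale.Agent.N336

open Finset Vale.Agent.Lib.PolyTime

/-- The number written in binary in the positions `off, …, off + len - 1` of `w`. -/
def fld (w : List Bool) (off len : ℕ) : ℕ := val ((w.drop off).take len)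

/-- The header field number `i`. -/
def hdr (w : List Bool) (i : ℕ) : ℕ := min (fld w (i * w.length.size) w.length.size) w.length

/-- The parity of `b` consecutive bits. -/
def blk (w : List Bool) (off b : ℕ) : ℕ :=
  (∑ j ∈ Finset.range b, (w.getD (off + j) false).toNat) % 2

/-- The language. -/
def lang (w : List Bool) : Bool :=
  hfun (hdr w 2) (hdr w 0 * hdr w 2)
    (fun j => fld w (3 * w.length.size + hdr w 0 * hdr w 2 * j) (hdr w 0 * hdr w 2))
    (∑ i ∈ Finset.range (hdr w 0),
      blk w (3 * w.length.size + hdr w 0 * hdr w 2 * hdr w 2 + i * hdr w 1) (hdr w 1) * 2 ^ i)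

namespace Lang

section PolyTime

variable {A : Set Word} {α : Type*} [Enc α]

theorem pt_sumRange {k : α → ℕ} {g : α → ℕ → ℕ} (hk : PT A k) (hkb : PBd k)
    (hg : PT A (fun p : α × ℕ => g p.1 (min p.2 (k p.1)))) :
    PT A (fun a => ∑ j ∈ Finset.range (k a), g a j) := by
  refine (PT.sum (PT.map (f := fun a j => g a (min j (k a))) (PT.range hk hkb) hg)).congr
    fun a => ?_
  rw [← List.sum_toFinset _ List.nodup_range, List.toFinset_range]
  exact sum_congr rfl fun j hj => by rw [min_eq_left (mem_range.1 hj).le]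

theorem pt_fld {w : α → Raw} {off len : α → ℕ} (hw : PT A w) (ho : PT A off) (hl : PT A len) :
    PT A (fun a => fld (w a).w (off a) (len a)) :=
  PT.rawVal (PT.rawTake (PT.rawDrop hw ho) hl)

theorem pt_hdr {w : α → Raw} (hw : PT A w) (i : ℕ) : PT A (fun a => hdr (w a).w i) :=
  PT.min (pt_fld hw (PT.mul (PT.const i) (PT.natSize (PT.rawLength hw)))
    (PT.natSize (PT.rawLength hw))) (PT.rawLength hw)

theorem pbd_hdr {w : α → Raw} (hw : PT A w) (i : ℕ) : PBd (fun a => hdr (w a).w i) :=
  hw.pbd.mono fun _ => min_le_right _ _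

theorem pt_toNat {f : α → Bool} (hf : PT A f) : PT A (fun a => (f a).toNat) :=
  (PT.cond hf (PT.const 1) (PT.const 0)).congr fun a => by cases f a <;> rfl

theorem pt_blk {w : α → Raw} {off b : α → ℕ} (hw : PT A w) (ho : PT A off) (hb : PT A b)
    (hbb : PBd b) : PT A (fun a => blk (w a).w (off a) (b a)) :=
  PT.mod (pt_sumRange (g := fun a j => ((w a).w.getD (off a + j) false).toNat) hb hbb
    (pt_toNat (PT.rawGetD (hw.comp PT.fst')
      (PT.add (ho.comp PT.fst') (PT.min PT.snd' (hb.comp PT.fst')))))) (PT.const 2)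

theorem pt_lang : PT A (fun w : Raw => lang w.w) := by
  have hid : PT A (fun w : Raw => w) := PT.id
  have hs : PT A (fun w : Raw => 3 * w.w.length.size) :=
    PT.mul (PT.const 3) (PT.natSize (PT.rawLength hid))
  have hL : PT A (fun w : Raw => hdr w.w 0 * hdr w.w 2) := PT.mul (pt_hdr hid 0) (pt_hdr hid 2)
  have hY : PT A (fun w : Raw => ∑ i ∈ Finset.range (hdr w.w 0),
      blk w.w (3 * w.w.length.size + hdr w.w 0 * hdr w.w 2 * hdr w.w 2 + i * hdr w.w 1)
        (hdr w.w 1) * 2 ^ i) := by
    have hm : PT A (fun p : Raw × ℕ => min p.2 (hdr p.1.w 0)) :=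
      PT.min PT.snd' (pt_hdr PT.fst' 0)
    refine pt_sumRange (pt_hdr hid 0) (pbd_hdr hid 0) (PT.mul (pt_blk PT.fst' ?_
      (pt_hdr PT.fst' 1) (pbd_hdr (A := A) PT.fst' 1)) (PT.pow (PT.const 2) hm
        ((pbd_hdr (A := A) PT.fst' 0).mono fun _ => min_le_right _ _)))
    exact PT.add (PT.add (hs.comp PT.fst') (PT.mul (hL.comp PT.fst') (pt_hdr PT.fst' 2)))
      (PT.mul hm (pt_hdr PT.fst' 1))
  have hm : PT A (fun p : Raw × ℕ => min p.2 (hdr p.1.w 2)) :=
    PT.min PT.snd' (pt_hdr PT.fst' 2)
  refine PT.testBit (pt_sumRange (pt_hdr hid 2) (pbd_hdr hid 2) (PT.mul (pt_fld PT.fst' ?_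
    (hL.comp PT.fst')) (PT.pow (hY.comp PT.fst') hm
      ((pbd_hdr (A := A) PT.fst' 2).mono fun _ => min_le_right _ _)))) (PT.sub hL (PT.const 1))
  exact PT.add (hs.comp PT.fst') (PT.mul (hL.comp PT.fst') hm)

end PolyTime

theorem testBit_val (w : List Bool) (j : ℕ) : (val w).testBit j = w.getD j false := by
  induction w generalizing j with
  | nil => simp
  | cons b w ih =>
    rw [val_cons]
    cases j with
    | zero => cases b <;> simp [Nat.add_mod]
    | succ j =>
      rw [Nat.testBit_succ, show (b.toNat + 2 * val w) / 2 = val w by cases b <;> (simp; try omega),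
        ih]
      simp

theorem fld_eq {w : List Bool} {off len x : ℕ} (hx : x < 2 ^ len)
    (h : ∀ j < len, w.getD (off + j) false = x.testBit j) : fld w off len = x := by
  refine Nat.eq_of_testBit_eq fun j => ?_
  rw [fld, testBit_val, List.getD_eq_getElem?_getD, List.getElem?_take]
  split_ifs with hj
  · rw [List.getElem?_drop, ← List.getD_eq_getElem?_getD, h j hj]
  · exact (Nat.testBit_lt_two_pow
      (hx.trans_le (Nat.pow_le_pow_right two_pos (not_lt.1 hj)))).symm

/-- The parity function. -/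
def parity {b : ℕ} (u : Fin b → Bool) : Bool := decide ((∑ j, (u j).toNat) % 2 = 1)

theorem flips_parity {b : ℕ} : Blocks.Flips (parity (b := b)) := by
  intro u j
  have h1 := add_sum_erase univ (fun i => (u i).toNat) (mem_univ j)
  have h2 := add_sum_erase univ (fun i => (Function.update u j (!u j) i).toNat) (mem_univ j)
  have h3 : ∑ i ∈ univ.erase j, (Function.update u j (!u j) i).toNat =
      ∑ i ∈ univ.erase j, (u i).toNat :=
    sum_congr rfl fun i hi => by rw [Function.update_of_ne (mem_erase.1 hi).1]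
  unfold parity
  rw [← h1, ← h2, h3, Function.update_self]
  cases u j <;> simp only [Bool.not_false, Bool.not_true, Bool.toNat_true, Bool.toNat_false] <;>
    rw [← decide_not, decide_eq_decide] <;> omega

theorem toNat_parity {b : ℕ} (u : Fin b → Bool) : (parity u).toNat = (∑ j, (u j).toNat) % 2 := by
  unfold parity
  rcases Nat.mod_two_eq_zero_or_one (∑ j, (u j).toNat) with h | h <;> simp [h]

/-- The fixed part of the input. -/
def cst (s m b t : ℕ) (a : ℕ → ℕ) (i : ℕ) : Bool :=
  if i < s then m.testBit i else if i < 2 * s then b.testBit (i - s)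
  else if i < 3 * s then t.testBit (i - 2 * s)
  else (a ((i - 3 * s) / (m * t))).testBit ((i - 3 * s) % (m * t))

/-- The input built from the fixed part and the point `x`. -/
def inp (s m b t : ℕ) (a : ℕ → ℕ) (x : Fin m × Fin b → Bool) (i : ℕ) : Bool :=
  if h : 3 * s + m * t * t ≤ i ∧ i - (3 * s + m * t * t) < m * b then
    x (finProdFinEquiv.symm ⟨i - (3 * s + m * t * t), h.2⟩)
  else cst s m b t a i

theorem getD_ofFn {n : ℕ} (g : ℕ → Bool) {i : ℕ} (hi : i < n) :
    (List.ofFn fun j : Fin n => g j).getD i false = g i := by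
  rw [List.getD_eq_getElem?_getD, List.getElem?_ofFn]
  simp [hi]

theorem lang_inp {n m b t : ℕ} (hm : 1 ≤ m) (hb : 1 ≤ b) (ht : 1 ≤ t) (a : ℕ → ℕ)
    (ha : ∀ j, a j < 2 ^ (m * t)) (hn : 3 * n.size + m * t * t + m * b ≤ n)
    (x : Fin m × Fin b → Bool) :
    lang (List.ofFn fun i : Fin n => inp n.size m b t a x i) =
      hfun t (m * t) a (num (Blocks.par parity x)) := by
  set w := List.ofFn fun i : Fin n => inp n.size m b t a x i with hw
  have hlen : w.length = n := List.length_ofFn
  have hns : n < 2 ^ n.size := Nat.lt_size_self n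
  have hmt : 1 ≤ m * t := Nat.mul_pos hm ht
  have hmn : m ≤ n := by nlinarith
  have hbn : b ≤ n := by nlinarith
  have htn : t ≤ n := by nlinarith
  have hc : ∀ i < 3 * n.size + m * t * t, w.getD i false = cst n.size m b t a i := by
    intro i hi
    rw [hw, getD_ofFn _ (by omega), inp, dif_neg (by omega)]
  have h0 : hdr w 0 = m := by
    rw [hdr, hlen, fld_eq (x := m) (by omega), min_eq_left hmn]
    intro j hj
    rw [hc _ (by omega), cst, if_pos (by omega), zero_mul, zero_add]
  have h1 : hdr w 1 = b := by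
    rw [hdr, hlen, fld_eq (x := b) (by omega), min_eq_left hbn]
    intro j hj
    rw [hc _ (by omega), cst, if_neg (by omega), if_pos (by omega)]
    congr 1
    omega
  have h2 : hdr w 2 = t := by
    rw [hdr, hlen, fld_eq (x := t) (by omega), min_eq_left htn]
    intro j hj
    rw [hc _ (by omega), cst, if_neg (by omega), if_neg (by omega), if_pos (by omega)]
    congr 1
    omega
  have hY : ∑ i ∈ Finset.range m, blk w (3 * n.size + m * t * t + i * b) b * 2 ^ i =
      num (Blocks.par parity x) := by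
    rw [num, Finset.sum_range]
    refine sum_congr rfl fun i _ => ?_
    rw [Blocks.par, toNat_parity, blk, Finset.sum_range]
    congr 2
    refine sum_congr rfl fun j _ => ?_
    have hij : (i : ℕ) * b + j < m * b := by
      have := i.2
      have := j.2
      nlinarith
    rw [hw, getD_ofFn _ (by omega), inp, dif_pos ⟨by omega, by omega⟩]
    congr 2
    rw [Equiv.symm_apply_eq]
    ext
    simp only [finProdFinEquiv_apply_val]
    rw [mul_comm b]
    omega
  rw [lang, h0, h1, h2, hlen, hY, hfun, hfun]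
  congr 1
  refine sum_congr rfl fun j hj => ?_
  rw [mem_range] at hj
  rw [fld_eq (ha j)]
  intro i hi
  have hij : m * t * j + i < m * t * t := by nlinarith
  rw [hc _ (by omega), cst, if_neg (by omega), if_neg (by omega), if_neg (by omega),
    show 3 * n.size + m * t * j + i - 3 * n.size = m * t * j + i by omega,
    Nat.mul_add_div hmt, Nat.mul_add_mod, Nat.div_eq_of_lt hi, Nat.mod_eq_of_lt hi, add_zero]

theorem isRestriction_inp (n s m b t : ℕ) (a : ℕ → ℕ) :
    IsRestriction (fun (x : Fin m × Fin b → Bool) (i : Fin n) => inp s m b t a x i) := by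
  intro i
  by_cases h : 3 * s + m * t * t ≤ (i : ℕ) ∧ (i : ℕ) - (3 * s + m * t * t) < m * b
  · exact Or.inr ⟨_, fun x => dif_pos h⟩
  · exact Or.inl ⟨_, fun x => dif_neg h⟩

end Lang

/-- The language is decided by a polynomial time Turing machine. -/
theorem lang_tm : ∃ M : Turing.TM2ComputableInPolyTime (fun w : List Bool => w)
    (fun c : Bool => [c]) lang, ∀ k, Finite (M.tm.Γ k) := by
  obtain ⟨g, hg, h⟩ := Lang.pt_lang (A := ∅)
  exact exists_tm2_of_polyTimeFun _ _ lang g (polyTimeFun_iff.2 hg) fun w => h ⟨w⟩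

/-- The depth-three lower bound for the language and for its complement. -/
theorem lang_lower {n m b r k l s : ℕ} (hm : 1 ≤ m) (hk : 1 ≤ k) (hr : 1 ≤ r)
    (h1 : 2 * m + 2 ≤ 2 ^ l) (h2 : 15 * l * k * (2048 * k ^ 4) ^ k ≤ r) (h3 : r ^ 6 ≤ 2 ^ m)
    (hb : 9 * m ≤ b * k) (hs : 40 * (s + 3) ≤ m) (hn1 : n < 2 ^ m)
    (hn2 : 3 * m + (2 * r) ^ 2 * m + m * b ≤ n) :
    2 ^ s < S3 (fun x : Fin n → Bool => lang (List.ofFn x)) ∧
      2 ^ s < S3 (fun x : Fin n → Bool => !lang (List.ofFn x)) := by
  obtain ⟨a, ha, hB⟩ := exists_seed hm hk hr h1 h2 h3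
  have hb1 : 1 ≤ b := by
    rcases Nat.eq_zero_or_pos b with rfl | h0
    · omega
    · exact h0
  have hsz : n.size ≤ m := Nat.size_le.2 hn1
  have hn : 3 * n.size + m * (2 * r) * (2 * r) + m * b ≤ n := by nlinarith
  have key := Lang.lang_inp hm hb1 (by omega : 1 ≤ 2 * r) a ha hn
  have e : (9 : ℝ) / 10 * m = 9 * (m : ℝ) / 10 := by ring
  constructor
  · refine lower Lang.flips_parity hk hb hs (fun z => hfun (2 * r) (m * (2 * r)) a (num z))
      (fun F hF => ?_) (Lang.isRestriction_inp n n.size m b (2 * r) a) key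
    rw [e]
    exact hB F hF
  · refine lower Lang.flips_parity hk hb hs (fun z => !hfun (2 * r) (m * (2 * r)) a (num z))
      (fun F hF => ?_) (Lang.isRestriction_inp n n.size m b (2 * r) a)
      (fun x => congrArg (!·) (key x))
    rw [e]
    refine le_trans (le_of_eq ?_) (hB F hF)
    rw [← abs_neg, ← sum_neg_distrib]
    refine congrArg _ (sum_congr rfl fun z _ => ?_)
    cases hfun (2 * r) (m * (2 * r)) a (num z) <;> simp [sgn]

end Vale.Agent.N336
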