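import Mathlib.Tactic
import Mathlib.Analysis.SpecialFunctions.Pow.Real
import Mathlib.Analysis.SpecialFunctions.Pow.Asymptotics
import Mathlib.Analysis.Complex.ExponentialBounds

/-!
The choice of the parameters for a given input length.
-/

namespace Vale.Agent.N336

open Filter

theorem mul_le_two_pow {a : ℕ} (ha : 15 ≤ a) : 1000 * a ≤ 2 ^ a := by
  induction a, ha using Nat.le_induction with
  | base => norm_num
  | succ a ha ih =>
    rw [pow_succ]
    omega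

/-- The natural number part of the choice of parameters. -/
theorem params_nat {n l a : ℕ} (ha : 15 ≤ a) (h1 : 2 ^ a ≤ l) (h2 : l < 2 ^ (a + 1))
    (h3 : 2 ^ l ≤ n) (h4 : n < 2 ^ (l + 1)) :
    ∃ k m b s : ℕ, 1 ≤ k ∧ 9 * m ≤ b * k ∧ 40 * (s + 3) ≤ m ∧ 1000 ≤ m ∧
      (∀ t ≤ 1024 * (2048 * k ^ 4) ^ k * k * (Nat.log 2 m + 3),
        t ≤ m ∧ 3 * m + m * t * t + m * b ≤ n) ∧ n < 2 ^ m ∧
      l ≤ 200 * a * k ∧ n * k ≤ 48 * m ^ 2 ∧ m ≤ 80 * s := by
  have hal := (mul_le_two_pow ha).trans h1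
  set k := l / (100 * a) with hk
  have hk1 : 100 * a * k ≤ l := Nat.mul_div_le _ _
  have hk2 : l < 100 * a * (k + 1) := Nat.lt_mul_div_succ _ (by omega)
  have hk0 : 1 ≤ k := by
    rcases Nat.eq_zero_or_pos k with h | h
    · rw [h] at hk2
      omega
    · exact h
  have hkl : k ≤ l := Nat.div_le_self _ _
  set m := Nat.sqrt (n * k / 12) with hm
  have hm1 : m * m ≤ n * k / 12 := Nat.sqrt_le _
  have hm2 : n * k / 12 < (m + 1) * (m + 1) := Nat.lt_succ_sqrt _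
  have hm3 : 12 * (m * m) ≤ n * k := by omega
  have hm4 : n * k < 12 * ((m + 1) * (m + 1)) := by omega
  obtain ⟨u, hu⟩ : ∃ u, l / 20 = u := ⟨_, rfl⟩
  have hu1 : 20 * u ≤ l := by omega
  have hu2 : l < 20 * u + 20 := by omega
  have hau : 50 * a ≤ u := by omega
  have hn : n ≤ n * k := Nat.le_mul_of_pos_right _ hk0
  -- lower bound for `m`
  have hm5 : 2 ^ (9 * u) ≤ m := by
    by_contra hc
    have g1 : m + 1 ≤ 2 ^ (9 * u) := by omega
    have g2 : (m + 1) * (m + 1) ≤ 2 ^ (9 * u) * 2 ^ (9 * u) := Nat.mul_le_mul g1 g1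
    have g3 : 2 ^ 4 * (2 ^ (9 * u) * 2 ^ (9 * u)) ≤ 2 ^ l := by
      rw [← pow_add, ← pow_add]
      exact Nat.pow_le_pow_right (by norm_num) (by omega)
    omega
  -- upper bound for `m`
  have hm6 : m ≤ 2 ^ (11 * u) := by
    by_contra hc
    have g1 : 2 ^ (11 * u) ≤ m := by omega
    have g2 : 2 ^ (11 * u) * 2 ^ (11 * u) ≤ m * m := Nat.mul_le_mul g1 g1
    have g3 : n * k ≤ 2 ^ (l + 1) * 2 ^ (a + 1) := Nat.mul_le_mul h4.le (by omega)
    have g4 : 2 ^ (l + 1) * 2 ^ (a + 1) ≤ 2 ^ (11 * u) * 2 ^ (11 * u) := by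
      rw [← pow_add, ← pow_add]
      exact Nat.pow_le_pow_right (by norm_num) (by omega)
    have g5 : 0 < 2 ^ (11 * u) * 2 ^ (11 * u) := by positivity
    omega
  have hm7 : 1000 ≤ m := by
    have : 2 ^ 10 ≤ 2 ^ (9 * u) := Nat.pow_le_pow_right (by norm_num) (by omega)
    omega
  have hK : (2048 * k ^ 4) ^ k ≤ 2 ^ u := by
    have g1 : k ^ 4 ≤ (2 ^ (a + 1)) ^ 4 := Nat.pow_le_pow_left (by omega) 4
    have g2 : 2048 * k ^ 4 ≤ 2 ^ (5 * a) := by
      calc 2048 * k ^ 4 ≤ 2 ^ 11 * (2 ^ (a + 1)) ^ 4 := Nat.mul_le_mul (by norm_num) g1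
        _ = 2 ^ (11 + (a + 1) * 4) := by rw [← pow_mul, ← pow_add]
        _ ≤ 2 ^ (5 * a) := Nat.pow_le_pow_right (by norm_num) (by omega)
    refine (Nat.pow_le_pow_left g2 k).trans ?_
    rw [← pow_mul]
    refine Nat.pow_le_pow_right (by norm_num) ?_
    have : 100 * a * k = 20 * (5 * a * k) := by ring
    omega
  have hlog : Nat.log 2 m + 3 ≤ 2 ^ (a + 1) := by
    have : Nat.log 2 m ≤ 11 * u := by
      have := Nat.log_mono_right (b := 2) hm6
      rwa [Nat.log_pow (by norm_num)] at this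
    omega
  have hT : 1024 * (2048 * k ^ 4) ^ k * k * (Nat.log 2 m + 3) ≤ 2 ^ (2 * u) := by
    calc _ ≤ 2 ^ 10 * 2 ^ u * 2 ^ (a + 1) * 2 ^ (a + 1) :=
          Nat.mul_le_mul (Nat.mul_le_mul (Nat.mul_le_mul (by norm_num) hK) (by omega)) hlog
      _ = 2 ^ (10 + u + (a + 1) + (a + 1)) := by rw [← pow_add, ← pow_add, ← pow_add]
      _ ≤ _ := Nat.pow_le_pow_right (by norm_num) (by omega)
  refine ⟨k, m, 9 * m / k + 1, m / 40 - 3, hk0, ?_, by omega, hm7, fun t ht => ?_, ?_, ?_, ?_,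
    by omega⟩
  · have := Nat.lt_mul_div_succ (9 * m) hk0
    rw [mul_comm k] at this
    exact this.le
  · have g1 : t ≤ 2 ^ (2 * u) := ht.trans hT
    have g2 : 2 ^ (2 * u) ≤ 2 ^ (9 * u) := Nat.pow_le_pow_right (by norm_num) (by omega)
    have g3 : m * t * t ≤ 2 ^ (15 * u) := by
      calc _ ≤ 2 ^ (11 * u) * 2 ^ (2 * u) * 2 ^ (2 * u) :=
            Nat.mul_le_mul (Nat.mul_le_mul hm6 g1) g1
        _ = _ := by rw [← pow_add, ← pow_add]; congr 1; ring
    have g4 : 2 ^ (11 * u) ≤ 2 ^ (15 * u) := Nat.pow_le_pow_right (by norm_num) (by omega)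
    have g5 : 2 ^ 6 * 2 ^ (15 * u) ≤ 2 ^ l := by
      rw [← pow_add]
      exact Nat.pow_le_pow_right (by norm_num) (by omega)
    have g6 : 9 * m / k ≤ 9 * m := Nat.div_le_self _ _
    have g7 : 4 * (m * (9 * m / k)) ≤ 3 * n := by
      have e1 : k * (9 * m / k) ≤ 9 * m := Nat.mul_div_le _ _
      have e2 : k * (4 * (m * (9 * m / k))) ≤ k * (3 * n) := by
        calc k * (4 * (m * (9 * m / k))) = 4 * m * (k * (9 * m / k)) := by ring
          _ ≤ 4 * m * (9 * m) := Nat.mul_le_mul_left _ e1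
          _ = 3 * (12 * (m * m)) := by ring
          _ ≤ 3 * (n * k) := Nat.mul_le_mul_left _ hm3
          _ = k * (3 * n) := by ring
      exact Nat.le_of_mul_le_mul_left e2 hk0
    refine ⟨by omega, ?_⟩
    rw [mul_add, mul_one]
    omega
  · refine h4.trans_le (Nat.pow_le_pow_right (by norm_num) (le_trans ?_ hm5))
    have g1 := mul_le_two_pow (a := u) (by omega)
    have g2 : 2 ^ u ≤ 2 ^ (9 * u) := Nat.pow_le_pow_right (by norm_num) (by omega)
    omega
  · have : 100 * a * (k + 1) ≤ 200 * a * k := by nlinarith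
    omega
  · nlinarith

theorem pow_six_le {m : ℕ} (hm : 1000 ≤ m) : m ^ 6 ≤ 2 ^ m := by
  have h1 := mul_le_two_pow (a := m / 6) (by omega)
  calc m ^ 6 ≤ (2 ^ (m / 6)) ^ 6 := Nat.pow_le_pow_left (by omega) 6
    _ = 2 ^ (m / 6 * 6) := by rw [← pow_mul]
    _ ≤ _ := Nat.pow_le_pow_right (by norm_num) (by omega)

/-- The choice of the parameters: width `k`, `m` blocks of size `b`, independence `2 r`, and the
exponent `s` of the lower bound. -/
theorem params {n : ℕ} (hn : 2 ^ 2 ^ 15 ≤ n) : ∃ m b r k L s : ℕ, 1 ≤ m ∧ 1 ≤ k ∧ 1 ≤ r ∧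
    2 * m + 2 ≤ 2 ^ L ∧ 15 * L * k * (2048 * k ^ 4) ^ k ≤ r ∧ r ^ 6 ≤ 2 ^ m ∧ 9 * m ≤ b * k ∧
    40 * (s + 3) ≤ m ∧ n < 2 ^ m ∧ 3 * m + (2 * r) ^ 2 * m + m * b ≤ n ∧
    (1 / 12000 : ℝ) * √(n * Real.log n / Real.log (Real.log n)) ≤ s := by
  have hn0 : n ≠ 0 := by
    have : 0 < 2 ^ 2 ^ 15 := Nat.two_pow_pos _
    omega
  set l := Nat.log 2 n with hl
  have hl1 : 2 ^ 15 ≤ l := Nat.le_log_of_pow_le (by norm_num) hn
  set a := Nat.log 2 l with ha
  have ha1 : 15 ≤ a := Nat.le_log_of_pow_le (by norm_num) hl1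
  have h1 : 2 ^ a ≤ l := Nat.pow_log_le_self 2 (by omega)
  have h2 : l < 2 ^ (a + 1) := Nat.lt_pow_succ_log_self (by norm_num) _
  have h3 : 2 ^ l ≤ n := Nat.pow_log_le_self 2 hn0
  have h4 : n < 2 ^ (l + 1) := Nat.lt_pow_succ_log_self (by norm_num) _
  obtain ⟨k, m, b, s, g1, g2, g3, g4, g5, g9, g6, g7, g8⟩ := params_nat ha1 h1 h2 h3 h4
  obtain ⟨c1, c2⟩ := g5 (2 * (15 * (Nat.log 2 m + 3) * k * (2048 * k ^ 4) ^ k)) (by
    calc _ = 30 * ((2048 * k ^ 4) ^ k * k * (Nat.log 2 m + 3)) := by ring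
      _ ≤ 1024 * ((2048 * k ^ 4) ^ k * k * (Nat.log 2 m + 3)) :=
        Nat.mul_le_mul_right _ (by norm_num)
      _ = _ := by ring)
  refine ⟨m, b, 15 * (Nat.log 2 m + 3) * k * (2048 * k ^ 4) ^ k, k, Nat.log 2 m + 3, s, by omega,
    g1, Nat.pos_of_ne_zero (by positivity), ?_, le_rfl,
    (Nat.pow_le_pow_left (by omega) 6).trans (pow_six_le g4), g2, g3, g9,
    le_trans (le_of_eq (by ring)) c2, ?_⟩
  · have := Nat.lt_pow_succ_log_self (b := 2) (by norm_num) m
    rw [Nat.succ_eq_add_one, pow_succ] at this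
    rw [pow_add]
    omega
  have hlo := Real.log_two_gt_d9
  have hhi := Real.log_two_lt_d9
  have hlR : (32768 : ℝ) ≤ l := by exact_mod_cast hl1
  have haR : (15 : ℝ) ≤ a := by exact_mod_cast ha1
  have hnR : (0 : ℝ) < n := by exact_mod_cast Nat.pos_of_ne_zero hn0
  have e1 : Real.log n ≤ l := by
    have : (n : ℝ) ≤ 2 ^ (l + 1) := by exact_mod_cast h4.le
    have := Real.log_le_log hnR this
    rw [Real.log_pow] at this
    push_cast at this
    nlinarith
  have e2 : (2 : ℝ) ^ a / 2 ≤ Real.log n := by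
    have b1 : (2 : ℝ) ^ l ≤ n := by exact_mod_cast h3
    have b2 := Real.log_le_log (by positivity) b1
    rw [Real.log_pow] at b2
    have b3 : (2 : ℝ) ^ a ≤ l := by exact_mod_cast h1
    nlinarith
  have e3 : (a : ℝ) / 2 ≤ Real.log (Real.log n) := by
    have := Real.log_le_log (by positivity) e2
    rw [Real.log_div (by positivity) (by norm_num), Real.log_pow] at this
    nlinarith
  have e4 : n * Real.log n / Real.log (Real.log n) ≤ (12000 * s) ^ 2 := by
    rw [div_le_iff₀ (by linarith)]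
    have b6 : (l : ℝ) ≤ 200 * a * k := by exact_mod_cast g6
    have b7 : (n : ℝ) * k ≤ 48 * m ^ 2 := by exact_mod_cast g7
    have b8 : (m : ℝ) ≤ 80 * s := by exact_mod_cast g8
    have b9 : (m : ℝ) ^ 2 ≤ (80 * s) ^ 2 := by gcongr
    calc n * Real.log n ≤ n * (200 * a * k) := by gcongr; linarith
      _ = 200 * a * (n * k) := by ring
      _ ≤ 200 * a * (48 * (80 * s) ^ 2) :=
        mul_le_mul_of_nonneg_left (by linarith) (by positivity)
      _ = 122880000 * s ^ 2 * (a / 2) := by ring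
      _ ≤ 144000000 * s ^ 2 * Real.log (Real.log n) := by gcongr; norm_num
      _ = _ := by ring
  have e5 := Real.sqrt_le_sqrt e4
  rw [Real.sqrt_sq (by positivity)] at e5
  linarith

/-- The exponent grows faster than the square root. -/
theorem eventually_sqrt_le {c : ℝ} (hc : 0 < c) (C : ℝ) : ∀ᶠ n : ℕ in atTop,
    C * √n ≤ c * √(n * Real.log n / Real.log (Real.log n)) := by
  have h1 : Tendsto (fun n : ℕ => Real.log n) atTop atTop :=
    Real.tendsto_log_atTop.comp tendsto_natCast_atTop_atTop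
  have h2 : ∀ᶠ x : ℝ in atTop, ((C / c) ^ 2 + 1) * Real.log x ≤ x := by
    have := Real.isLittleO_log_id_atTop.bound (c := ((C / c) ^ 2 + 1)⁻¹) (by positivity)
    filter_upwards [this, eventually_ge_atTop 0] with x hx hx0
    simp only [id, Real.norm_eq_abs, abs_of_nonneg hx0] at hx
    have := (le_abs_self _).trans hx
    rwa [← div_eq_inv_mul, le_div_iff₀ (by positivity), mul_comm] at this
  filter_upwards [h1.eventually h2, h1.eventually (eventually_gt_atTop 1)] with n a1 a2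
  have a3 : 0 < Real.log (Real.log n) := Real.log_pos a2
  have a4 : (C / c) ^ 2 ≤ Real.log n / Real.log (Real.log n) := by
    rw [le_div_iff₀ a3]
    nlinarith
  rw [mul_div_assoc, Real.sqrt_mul (Nat.cast_nonneg n)]
  have a5 : C / c ≤ √(Real.log n / Real.log (Real.log n)) := Real.le_sqrt_of_sq_le a4
  rw [div_le_iff₀ hc] at a5
  have := mul_le_mul_of_nonneg_right a5 (Real.sqrt_nonneg (n : ℝ))
  linarith

end Vale.Agent.N336
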