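import Vale.Agent.N336.Meas
import Vale.Agent.N336.Lang
import Vale.Agent.N336.Params

/-!
The depth-three lower bound with exponent `c √(n log n)`: width `k` of the order of `log m`.
-/

namespace Vale.Agent.N336

open Finset Filter

theorem side_condition_log {m k r l s : ℕ} (hm : 1 ≤ m) (hk : 1 ≤ k) (hr : 1 ≤ r)
    (h1 : 2 * m + 2 ≤ 2 ^ l) (e2 : 3 * (l * k * s) ≤ m * r) (h3 : r ^ 6 ≤ 2 ^ m) :
    ((((2 * m + 1) ^ k + 1) ^ s : ℕ) : ℝ) * (((2 ^ m : ℕ) : ℝ) ^ r * (r : ℝ) ^ (2 * r)) <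
        ((2 : ℝ) ^ (17 * (m : ℝ) / 20)) ^ (2 * r) := by
  have e1 : (2 * m + 1) ^ k + 1 ≤ 2 ^ (l * k) := by
    have : (2 * m + 1) ^ k < (2 * m + 2) ^ k := Nat.pow_lt_pow_left (by omega) (by omega)
    rw [pow_mul]
    exact le_trans this (Nat.pow_le_pow_left h1 k)
  have e3 : (((2 * m + 1) ^ k + 1) ^ s) ^ 3 ≤ 2 ^ (m * r) := by
    refine (Nat.pow_le_pow_left (Nat.pow_le_pow_left e1 _) 3).trans ?_
    rw [← pow_mul, ← pow_mul]
    exact Nat.pow_le_pow_right two_pos (by nlinarith)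
  have e4 : (r ^ (2 * r)) ^ 3 ≤ 2 ^ (m * r) := by
    rw [← pow_mul, show 2 * r * 3 = 6 * r by ring, pow_mul, pow_mul]
    exact Nat.pow_le_pow_left h3 r
  have e5 : (((2 * m + 1) ^ k + 1) ^ s * ((2 ^ m) ^ r * r ^ (2 * r))) ^ 3 ≤
      2 ^ (5 * (m * r)) := by
    have e : 2 ^ (5 * (m * r)) = 2 ^ (m * r) * (((2 ^ m) ^ r) ^ 3 * 2 ^ (m * r)) := by
      rw [← pow_mul, ← pow_mul, ← pow_add, ← pow_add]
      congr 1
      ring
    rw [mul_pow, mul_pow, e]
    exact Nat.mul_le_mul e3 (Nat.mul_le_mul_left _ e4)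
  refine lt_of_pow_lt_pow_left₀ 3 (by positivity) ?_
  have e6 : (((((2 * m + 1) ^ k + 1) ^ s : ℕ) : ℝ) *
      (((2 ^ m : ℕ) : ℝ) ^ r * (r : ℝ) ^ (2 * r))) ^ 3 ≤ (2 : ℝ) ^ (5 * (m * r)) := by
    exact_mod_cast e5
  refine e6.trans_lt ?_
  rw [← pow_mul, ← Real.rpow_natCast, ← Real.rpow_natCast, ← Real.rpow_mul (by norm_num)]
  refine Real.rpow_lt_rpow_of_exponent_lt one_lt_two ?_
  have : (0 : ℝ) < (m : ℝ) * r := by exact_mod_cast Nat.mul_pos hm hr
  push_cast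
  nlinarith

open Family in
/-- Some member of the family has small correlation with every CNF of width at most `k`, where
the independence is only `2 ^ O(k) log m`. -/
theorem exists_seed_log {m k r l : ℕ} (hk : 1 ≤ k) (hmk : 4000 * k ≤ m) (hr : 1 ≤ r)
    (h1 : 2 * m + 2 ≤ 2 ^ l) (h2 : 6 * l * k * 2 ^ (40 * k) ≤ r) (h3 : r ^ 6 ≤ 2 ^ m) :
    ∃ a : ℕ → ℕ, (∀ j, a j < 2 ^ (m * (2 * r))) ∧
      ∀ F : Finset (Clause (Fin m)), (∀ C ∈ F, C.card ≤ k) →
        |∑ y ∈ sols F, (if hfun (2 * r) (m * (2 * r)) a (num y) then (-1 : ℝ) else 1)| ≤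
          (2 : ℝ) ^ (9 * (m : ℝ) / 10) := by
  classical
  have hm : 1 ≤ m := by omega
  set Z : Finset (Clause (Fin m)) :=
    (univ : Finset (Fin m × Bool)).powerset.filter (fun C => C.card ≤ k) with hZ
  set s : ℕ := 2 * m * 2 ^ (40 * k) with hs
  have hZc : Z.card ≤ (2 * m + 1) ^ k := by
    refine (Moment.card_small_subsets_le _ k).trans_eq ?_
    simp [mul_comm]
  have hI : (Z.powerset.filter (fun F => F.card ≤ s)).card ≤ ((2 * m + 1) ^ k + 1) ^ s :=
    (Moment.card_small_subsets_le Z s).trans (Nat.pow_le_pow_left (by omega) s)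
  obtain ⟨w, hw⟩ := Moment.exists_good
    (fun (a : Fin (2 * r) → ZMod (2 ^ (m * (2 * r)))) (y : Fin m → Bool) =>
      if top (m * (2 * r)) (ev a (num y)) then (-1 : ℝ) else 1)
    (fun a y => by split_ifs <;> norm_num) hr
    (fun A hne hA => sum_prod_eq_zero hm num num_injective num_lt A hne hA)
    (Z.powerset.filter (fun F => F.card ≤ s)) sols (B := (2 : ℝ) ^ (17 * (m : ℝ) / 20))
    (by positivity) (by
      refine lt_of_le_of_lt ?_ (side_condition_log (s := s) hm hk hr h1 ?_ h3)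
      · rw [Fintype.card_fun, Fintype.card_bool, Fintype.card_fin]
        refine mul_le_mul_of_nonneg_right ?_ (by positivity)
        exact_mod_cast hI
      · calc 3 * (l * k * s) = m * (6 * l * k * 2 ^ (40 * k)) := by rw [hs]; ring
          _ ≤ m * r := Nat.mul_le_mul_left _ h2)
  have hL : 1 ≤ m * (2 * r) := Nat.mul_pos hm (by omega)
  refine ⟨fun j => if h : j < 2 * r then (w ⟨j, h⟩).val else 0, fun j => ?_, fun F hF => ?_⟩
  · dsimp only
    split_ifs
    · exact ZMod.val_lt _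
    · positivity
  · have he : ∀ Y : ℕ, hfun (2 * r) (m * (2 * r))
        (fun j => if h : j < 2 * r then (w ⟨j, h⟩).val else 0) Y =
        top (m * (2 * r)) (ev w Y) := by
      intro Y
      rw [hfun, ← top_natCast hL, ev, Finset.sum_range]
      congr 1
      push_cast
      refine sum_congr rfl fun j _ => ?_
      rw [dif_pos j.2, ZMod.natCast_zmod_val]
    simp only [he]
    have h4 := sparsify_meas (V := Fin m)
      (fun y => if top (m * (2 * r)) (ev w (num y)) then (-1 : ℝ) else 1)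
      (fun y => by split_ifs <;> simp) hk (by simpa using hmk) (fun G hG hGk => by
        rw [Fintype.card_fin] at hG ⊢
        refine hw G ?_
        rw [mem_filter, mem_powerset]
        exact ⟨fun C hC => mem_filter.2 ⟨mem_powerset.2 (subset_univ _), hGk C hC⟩, hG⟩) F hF
    rwa [Fintype.card_fin] at h4

/-- The depth-three lower bound for the language and for its complement. -/
theorem lang_lower_log {n m b r k l s : ℕ} (hk : 1 ≤ k) (hmk : 4000 * k ≤ m) (hr : 1 ≤ r)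
    (h1 : 2 * m + 2 ≤ 2 ^ l) (h2 : 6 * l * k * 2 ^ (40 * k) ≤ r) (h3 : r ^ 6 ≤ 2 ^ m)
    (hb : 9 * m ≤ b * k) (hs : 40 * (s + 3) ≤ m) (hn1 : n < 2 ^ m)
    (hn2 : 3 * m + (2 * r) ^ 2 * m + m * b ≤ n) :
    2 ^ s < S3 (fun x : Fin n → Bool => lang (List.ofFn x)) ∧
      2 ^ s < S3 (fun x : Fin n → Bool => !lang (List.ofFn x)) := by
  have hm : 1 ≤ m := by omega
  obtain ⟨a, ha, hB⟩ := exists_seed_log hk hmk hr h1 h2 h3
  have hb1 : 1 ≤ b := by
    rcases Nat.eq_zero_or_pos b with rfl | h0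
    · omega
    · exact h0
  have hsz : n.size ≤ m := Nat.size_le.2 hn1
  have hn : 3 * n.size + m * (2 * r) * (2 * r) + m * b ≤ n := by nlinarith
  have key := Lang.lang_inp hm hb1 (by omega : 1 ≤ 2 * r) a ha hn
  have e : (9 : ℝ) / 10 * m = 9 * (m : ℝ) / 10 := by ring
  constructor
  · refine lower Lang.flips_parity hk hb hs (fun z => hfun (2 * r) (m * (2 * r)) a (num z))
      (fun F hF => ?_) (Lang.isRestriction_inp n n.size m b (2 * r) a) key
    rw [e]
    exact hB F hF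
  · refine lower Lang.flips_parity hk hb hs (fun z => !hfun (2 * r) (m * (2 * r)) a (num z))
      (fun F hF => ?_) (Lang.isRestriction_inp n n.size m b (2 * r) a)
      (fun x => congrArg (!·) (key x))
    rw [e]
    refine le_trans (le_of_eq ?_) (hB F hF)
    rw [← abs_neg, ← sum_neg_distrib]
    refine congrArg _ (sum_congr rfl fun z _ => ?_)
    cases hfun (2 * r) (m * (2 * r)) a (num z) <;> simp [sgn]

/-- The natural number part of the choice of parameters. -/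
theorem params_nat_log {n l a : ℕ} (ha : 15 ≤ a) (h1 : 2 ^ a ≤ l) (h2 : l < 2 ^ (a + 1))
    (h3 : 2 ^ l ≤ n) (h4 : n < 2 ^ (l + 1)) :
    ∃ k m b s : ℕ, 1 ≤ k ∧ 4000 * k ≤ m ∧ 9 * m ≤ b * k ∧ 40 * (s + 3) ≤ m ∧
      (∀ t ≤ 1024 * 2 ^ (40 * k) * k * (Nat.log 2 m + 3),
        t ≤ m ∧ 3 * m + m * t * t + m * b ≤ n) ∧ n < 2 ^ m ∧
      l ≤ 2000 * k ∧ n * k ≤ 48 * m ^ 2 ∧ m ≤ 80 * s := by
  have hal := (mul_le_two_pow ha).trans h1
  obtain ⟨k, hk⟩ : ∃ k, l / 1000 = k := ⟨_, rfl⟩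
  have hk1 : 1000 * k ≤ l := by omega
  have hk2 : l < 1000 * (k + 1) := by omega
  have hk0 : 1 ≤ k := by omega
  set m := Nat.sqrt (n * k / 12) with hm
  have hm1 : m * m ≤ n * k / 12 := Nat.sqrt_le _
  have hm2 : n * k / 12 < (m + 1) * (m + 1) := Nat.lt_succ_sqrt _
  have hm3 : 12 * (m * m) ≤ n * k := by omega
  have hm4 : n * k < 12 * ((m + 1) * (m + 1)) := by omega
  obtain ⟨u, hu⟩ : ∃ u, l / 20 = u := ⟨_, rfl⟩
  have hu1 : 20 * u ≤ l := by omega
  have hu2 : l < 20 * u + 20 := by omega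
  have hau : 50 * a ≤ u := by omega
  have hn : n ≤ n * k := Nat.le_mul_of_pos_right _ hk0
  have hm5 : 2 ^ (9 * u) ≤ m := by
    by_contra hc
    have g1 : m + 1 ≤ 2 ^ (9 * u) := by omega
    have g2 : (m + 1) * (m + 1) ≤ 2 ^ (9 * u) * 2 ^ (9 * u) := Nat.mul_le_mul g1 g1
    have g3 : 2 ^ 4 * (2 ^ (9 * u) * 2 ^ (9 * u)) ≤ 2 ^ l := by
      rw [← pow_add, ← pow_add]
      exact Nat.pow_le_pow_right (by norm_num) (by omega)
    omega
  have hm6 : m ≤ 2 ^ (11 * u) := by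
    by_contra hc
    have g1 : 2 ^ (11 * u) ≤ m := by omega
    have g2 : 2 ^ (11 * u) * 2 ^ (11 * u) ≤ m * m := Nat.mul_le_mul g1 g1
    have g3 : n * k ≤ 2 ^ (l + 1) * 2 ^ (a + 1) := Nat.mul_le_mul h4.le (by omega)
    have g4 : 2 ^ (l + 1) * 2 ^ (a + 1) ≤ 2 ^ (11 * u) * 2 ^ (11 * u) := by
      rw [← pow_add, ← pow_add]
      exact Nat.pow_le_pow_right (by norm_num) (by omega)
    have g5 : 0 < 2 ^ (11 * u) * 2 ^ (11 * u) := by positivity
    omega
  have hu3 : 1000 * u ≤ m := by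
    have g1 := mul_le_two_pow (a := u) (by omega)
    have g2 : 2 ^ u ≤ 2 ^ (9 * u) := Nat.pow_le_pow_right (by norm_num) (by omega)
    omega
  have hK : 2 ^ (40 * k) ≤ 2 ^ u := Nat.pow_le_pow_right (by norm_num) (by omega)
  have hlog : Nat.log 2 m + 3 ≤ 2 ^ (a + 1) := by
    have : Nat.log 2 m ≤ 11 * u := by
      have := Nat.log_mono_right (b := 2) hm6
      rwa [Nat.log_pow (by norm_num)] at this
    omega
  have hT : 1024 * 2 ^ (40 * k) * k * (Nat.log 2 m + 3) ≤ 2 ^ (2 * u) := by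
    calc _ ≤ 2 ^ 10 * 2 ^ u * 2 ^ (a + 1) * 2 ^ (a + 1) :=
          Nat.mul_le_mul (Nat.mul_le_mul (Nat.mul_le_mul (by norm_num) hK) (by omega)) hlog
      _ = 2 ^ (10 + u + (a + 1) + (a + 1)) := by rw [← pow_add, ← pow_add, ← pow_add]
      _ ≤ _ := Nat.pow_le_pow_right (by norm_num) (by omega)
  refine ⟨k, m, 9 * m / k + 1, m / 40 - 3, hk0, by omega, ?_, by omega, fun t ht => ?_, ?_,
    by omega, ?_, by omega⟩
  · have := Nat.lt_mul_div_succ (9 * m) hk0
    rw [mul_comm k] at this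
    exact this.le
  · have g1 : t ≤ 2 ^ (2 * u) := ht.trans hT
    have g2 : 2 ^ (2 * u) ≤ 2 ^ (9 * u) := Nat.pow_le_pow_right (by norm_num) (by omega)
    have g3 : m * t * t ≤ 2 ^ (15 * u) := by
      calc _ ≤ 2 ^ (11 * u) * 2 ^ (2 * u) * 2 ^ (2 * u) :=
            Nat.mul_le_mul (Nat.mul_le_mul hm6 g1) g1
        _ = _ := by rw [← pow_add, ← pow_add]; congr 1; ring
    have g4 : 2 ^ (11 * u) ≤ 2 ^ (15 * u) := Nat.pow_le_pow_right (by norm_num) (by omega)
    have g5 : 2 ^ 6 * 2 ^ (15 * u) ≤ 2 ^ l := by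
      rw [← pow_add]
      exact Nat.pow_le_pow_right (by norm_num) (by omega)
    have g6 : 9 * m / k ≤ 9 * m := Nat.div_le_self _ _
    have g7 : 4 * (m * (9 * m / k)) ≤ 3 * n := by
      have e1 : k * (9 * m / k) ≤ 9 * m := Nat.mul_div_le _ _
      have e2 : k * (4 * (m * (9 * m / k))) ≤ k * (3 * n) := by
        calc k * (4 * (m * (9 * m / k))) = 4 * m * (k * (9 * m / k)) := by ring
          _ ≤ 4 * m * (9 * m) := Nat.mul_le_mul_left _ e1
          _ = 3 * (12 * (m * m)) := by ring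
          _ ≤ 3 * (n * k) := Nat.mul_le_mul_left _ hm3
          _ = k * (3 * n) := by ring
      exact Nat.le_of_mul_le_mul_left e2 hk0
    refine ⟨by omega, ?_⟩
    rw [mul_add, mul_one]
    omega
  · exact h4.trans_le (Nat.pow_le_pow_right (by norm_num) (by omega))
  · nlinarith

/-- The lower bound `2 ^ (c √(n log n))` for the language and for its complement. -/
theorem lang_log {n : ℕ} (hn : 2 ^ 2 ^ 15 ≤ n) :
    (2 : ℝ) ^ ((1 / 25000 : ℝ) * √(n * Real.log n)) ≤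
        (S3 (fun x : Fin n → Bool => lang (List.ofFn x)) : ℝ) ∧
      (2 : ℝ) ^ ((1 / 25000 : ℝ) * √(n * Real.log n)) ≤
        (S3 (fun x : Fin n → Bool => !lang (List.ofFn x)) : ℝ) := by
  have hn0 : n ≠ 0 := by
    have : 0 < 2 ^ 2 ^ 15 := Nat.two_pow_pos _
    omega
  set l := Nat.log 2 n with hl
  have hl1 : 2 ^ 15 ≤ l := Nat.le_log_of_pow_le (by norm_num) hn
  set a := Nat.log 2 l with ha
  have ha1 : 15 ≤ a := Nat.le_log_of_pow_le (by norm_num) hl1
  have h1 : 2 ^ a ≤ l := Nat.pow_log_le_self 2 (by omega)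
  have h2 : l < 2 ^ (a + 1) := Nat.lt_pow_succ_log_self (by norm_num) _
  have h3 : 2 ^ l ≤ n := Nat.pow_log_le_self 2 hn0
  have h4 : n < 2 ^ (l + 1) := Nat.lt_pow_succ_log_self (by norm_num) _
  obtain ⟨k, m, b, s, g1, g4, g2, g3, g5, g9, g6, g7, g8⟩ := params_nat_log ha1 h1 h2 h3 h4
  obtain ⟨c1, c2⟩ := g5 (2 * (6 * (Nat.log 2 m + 3) * k * 2 ^ (40 * k))) (by
    calc _ = 12 * (2 ^ (40 * k) * k * (Nat.log 2 m + 3)) := by ring
      _ ≤ 1024 * (2 ^ (40 * k) * k * (Nat.log 2 m + 3)) :=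
        Nat.mul_le_mul_right _ (by norm_num)
      _ = _ := by ring)
  obtain ⟨d1, d2⟩ := lang_lower_log (n := n) (l := Nat.log 2 m + 3)
    (r := 6 * (Nat.log 2 m + 3) * k * 2 ^ (40 * k)) g1 g4 (Nat.pos_of_ne_zero (by positivity))
    (by
      have := Nat.lt_pow_succ_log_self (b := 2) (by norm_num) m
      rw [Nat.succ_eq_add_one, pow_succ] at this
      rw [pow_add]
      omega) le_rfl
    ((Nat.pow_le_pow_left (by omega) 6).trans (pow_six_le (by omega))) g2 g3 g9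
    (le_trans (le_of_eq (by ring)) c2)
  have hhi := Real.log_two_lt_d9
  have hlR : (32768 : ℝ) ≤ l := by exact_mod_cast hl1
  have hnR : (0 : ℝ) < n := by exact_mod_cast Nat.pos_of_ne_zero hn0
  have e1 : Real.log n ≤ l := by
    have : (n : ℝ) ≤ 2 ^ (l + 1) := by exact_mod_cast h4.le
    have := Real.log_le_log hnR this
    rw [Real.log_pow] at this
    push_cast at this
    nlinarith
  have e4 : n * Real.log n ≤ (25000 * s) ^ 2 := by
    have b6 : (l : ℝ) ≤ 2000 * k := by exact_mod_cast g6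
    have b7 : (n : ℝ) * k ≤ 48 * m ^ 2 := by exact_mod_cast g7
    have b8 : (m : ℝ) ≤ 80 * s := by exact_mod_cast g8
    have b9 : (m : ℝ) ^ 2 ≤ (80 * s) ^ 2 := by gcongr
    calc n * Real.log n ≤ n * (2000 * k) := by gcongr; linarith
      _ = 2000 * (n * k) := by ring
      _ ≤ 2000 * (48 * (80 * s) ^ 2) := by linarith
      _ = 614400000 * s ^ 2 := by ring
      _ ≤ 625000000 * s ^ 2 := by gcongr; norm_num
      _ = _ := by ring
  have e5 := Real.sqrt_le_sqrt e4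
  rw [Real.sqrt_sq (by positivity)] at e5
  have e : (2 : ℝ) ^ ((1 / 25000 : ℝ) * √(n * Real.log n)) ≤ ((2 ^ s : ℕ) : ℝ) := by
    rw [Nat.cast_pow, Nat.cast_ofNat, ← Real.rpow_natCast]
    exact Real.rpow_le_rpow_of_exponent_le one_le_two (by linarith)
  exact ⟨e.trans (Nat.cast_le.2 d1.le), e.trans (Nat.cast_le.2 d2.le)⟩

/-- The exponent `√(n log n)` grows faster than `√n` and than `√(n log n / log log n)`. -/
theorem eventually_le_sqrt_log {c : ℝ} (hc : 0 < c) (C : ℝ) : ∀ᶠ n : ℕ in atTop,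
    C * √n ≤ c * √(n * Real.log n) ∧
      C * √(n * Real.log n / Real.log (Real.log n)) ≤ c * √(n * Real.log n) := by
  have h1 : Tendsto (fun n : ℕ => Real.log n) atTop atTop :=
    Real.tendsto_log_atTop.comp tendsto_natCast_atTop_atTop
  have h2 : Tendsto (fun n : ℕ => Real.log (Real.log n)) atTop atTop :=
    Real.tendsto_log_atTop.comp h1
  filter_upwards [h1.eventually (eventually_ge_atTop ((C / c) ^ 2)),
    h2.eventually (eventually_ge_atTop ((C / c) ^ 2)), h2.eventually (eventually_gt_atTop 0)]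
    with n a1 a2 a3
  constructor
  · rw [Real.sqrt_mul (Nat.cast_nonneg n)]
    have a5 : C / c ≤ √(Real.log n) := Real.le_sqrt_of_sq_le a1
    rw [div_le_iff₀ hc] at a5
    have := mul_le_mul_of_nonneg_right a5 (Real.sqrt_nonneg (n : ℝ))
    linarith
  · rw [Real.sqrt_div' _ a3.le, ← mul_div_assoc, div_le_iff₀ (Real.sqrt_pos.2 a3)]
    have a5 : C / c ≤ √(Real.log (Real.log n)) := Real.le_sqrt_of_sq_le a2
    rw [div_le_iff₀ hc] at a5
    have := mul_le_mul_of_nonneg_right a5 (Real.sqrt_nonneg (n * Real.log n))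
    linarith

end Vale.Agent.N336
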