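import Vale.Agent.N336.Signed
import Mathlib.Analysis.SpecialFunctions.Pow.Real
import Mathlib.Analysis.Complex.ExponentialBounds
import Mathlib.Data.List.GetD

/-!
Sparsification by measure: a correlation bound for CNFs of width at most `k` with at most
`m 2 ^ O(k)` clauses gives a correlation bound for all CNFs of width at most `k`.
-/

namespace Vale.Agent.N336.Meas

open Finset Vale.Agent.N336 Vale.Agent.N336.Signed

variable {V : Type*} [DecidableEq V] [Fintype V]

/-- The number of points of `Q` satisfying the clauses with index in `N`. -/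
def cnt (C : ℕ → Clause V) (Q : Finset (V → Bool)) (N : Finset ℕ) : ℝ :=
  ((Q.filter (allIn C N)).card : ℝ)

/-- The bound on the sums over a cube, by recursion on the number of levels. -/
noncomputable def bnd (C : ℕ → Clause V) (S : ℕ) (B d : ℝ) :
    ℕ → ℝ → Finset V → Finset (V → Bool) → ℝ
  | 0, w, _, _ => w
  | j + 1, w, L, Q => B + ∑ s ∈ range S, ∑ y ∈ Q,
      if first C S (cube (L \ vars (C s)) y) = s then
        bnd C S B d j (d * w) (L \ vars (C s)) (cube (L \ vars (C s)) y) /
          2 ^ (L \ vars (C s)).card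
      else 0

variable {C : ℕ → Clause V} {χ : (V → Bool) → ℝ} {S : ℕ} {B d : ℝ}

theorem bnd_nonneg (hB : 0 ≤ B) (hd : 0 ≤ d) (j : ℕ) :
    ∀ w, 0 ≤ w → ∀ L Q, 0 ≤ bnd C S B d j w L Q := by
  induction j with
  | zero => exact fun w hw _ _ => hw
  | succ j ih =>
    intro w hw L Q
    refine add_nonneg hB (sum_nonneg fun s _ => sum_nonneg fun y _ => ?_)
    split_ifs
    · exact div_nonneg (ih _ (mul_nonneg hd hw) _ _) (by positivity)
    · exact le_rfl

omit [Fintype V] [DecidableEq V] in
theorem abs_phi_le_cnt (hχ : ∀ y, |χ y| ≤ 1) (Q : Finset (V → Bool)) (N : Finset ℕ) (r : ℕ) :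
    |phi C χ Q N r| ≤ cnt C Q N := by
  unfold phi cnt
  refine (abs_sum_le_sum_abs _ _).trans ((sum_le_card_nsmul _ _ 1 fun y _ => hχ y).trans ?_)
  rw [nsmul_eq_mul, mul_one]
  exact Nat.cast_le.2 (card_le_card fun y hy => mem_filter.2 ⟨(mem_filter.1 hy).1,
    fun s hs => (mem_filter.1 hy).2 s (mem_union_left _ hs)⟩)

omit [Fintype V] [DecidableEq V] in
theorem cnt_split (Q : Finset (V → Bool)) (N : Finset ℕ) (r : ℕ) :
    cnt C Q N = cnt C Q (insert r N) + cnt C (Q.filter fun y => ¬ sat (C r) y) N := by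
  unfold cnt
  rw [← Nat.cast_add, ← card_filter_add_card_filter_not (s := Q.filter (allIn C N))
    (fun y => sat (C r) y), filter_filter, filter_filter, filter_filter]
  congr 3
  · refine filter_congr fun y _ => ?_
    simp only [allIn, mem_insert, forall_eq_or_imp]
    tauto
  · exact filter_congr fun y _ => and_comm

/-- The recursive bound holds for all admissible sets of clauses. -/
theorem phi_le_bnd (hχ : ∀ y, |χ y| ≤ 1) (hd0 : 0 ≤ d) (hd1 : d ≤ 1) {N₀ : ℕ} {w₀ : ℝ}
    (hw₀ : w₀ * (1 - d) ^ N₀ ≤ B)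
    (hB : ∀ L x, ∀ N ⊆ range S, N.card ≤ N₀ → |∑ y ∈ cube L x with allIn C N y, χ y| ≤ B)
    (j : ℕ) : ∀ w, 0 ≤ w → w ≤ w₀ → ∀ L x, ∀ N ⊆ range S,
      cnt C (cube L x) N ≤ w * (1 - d) ^ N.card →
      |phi C χ (cube L x) N (first C S (cube L x))| ≤ bnd C S B d j w L (cube L x) := by
  have h1d : 0 ≤ 1 - d := by linarith
  have hB0 : 0 ≤ B := (abs_nonneg _).trans (hB ∅ (fun _ => false) ∅ (empty_subset _) (by simp))
  induction j with
  | zero =>
    intro w hw _ L x N _ hN
    refine (abs_phi_le_cnt hχ _ _ _).trans (hN.trans ?_)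
    exact mul_le_of_le_one_right hw (pow_le_one₀ h1d (by linarith))
  | succ j ih =>
    intro w hw hww L x N hNS hN
    set r₀ := first C S (cube L x) with hr₀
    have hr₀S : r₀ ≤ S := first_le _
    obtain ⟨M, hM, hmax⟩ := exists_max_image
      ((N ∪ range r₀).powerset.filter fun M =>
        N ⊆ M ∧ cnt C (cube L x) M ≤ w * (1 - d) ^ M.card) card
      ⟨N, mem_filter.2 ⟨mem_powerset.2 subset_union_left, subset_rfl, hN⟩⟩
    obtain ⟨hM1, hM2, hM3⟩ := mem_filter.1 hM
    rw [mem_powerset] at hM1
    have hMS : M ⊆ range S :=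
      hM1.trans (union_subset hNS (range_subset_range.2 hr₀S))
    have e : phi C χ (cube L x) N r₀ = phi C χ (cube L x) M r₀ := by
      unfold phi
      rw [show N ∪ range r₀ = M ∪ range r₀ from subset_antisymm
        (union_subset_union_left hM2) (union_subset hM1 subset_union_right)]
    set ch : ℕ → (V → Bool) → ℝ := fun s y =>
      if first C S (cube (L \ vars (C s)) y) = s then
        bnd C S B d j (d * w) (L \ vars (C s)) (cube (L \ vars (C s)) y) /
          2 ^ (L \ vars (C s)).card
      else 0 with hch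
    have hch0 : ∀ s y, 0 ≤ ch s y := by
      intro s y
      simp only [hch]
      split_ifs
      · exact div_nonneg (bnd_nonneg hB0 hd0 _ _ (mul_nonneg hd0 hw) _ _) (by positivity)
      · exact le_rfl
    change _ ≤ B + ∑ s ∈ range S, ∑ y ∈ cube L x, ch s y
    have hs0 : ∀ s, 0 ≤ ∑ y ∈ cube L x, ch s y := fun s => sum_nonneg fun y _ => hch0 s y
    rw [e]
    by_cases hc : N₀ ≤ M.card
    · refine (abs_phi_le_cnt hχ _ _ _).trans (hM3.trans ?_)
      have : w * (1 - d) ^ M.card ≤ w₀ * (1 - d) ^ N₀ :=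
        mul_le_mul hww (pow_le_pow_of_le_one h1d (by linarith) hc) (by positivity) (hw.trans hww)
      have := sum_nonneg (s := range S) fun s _ => hs0 s
      linarith
    have hchild : ∀ r < r₀,
        |phi C χ ((cube L x).filter fun y => ¬ sat (C r) y) M r| ≤ ∑ y ∈ cube L x, ch r y := by
      intro r hr
      by_cases h : ∃ y ∈ cube L x, ¬ sat (C r) y
      · obtain ⟨y, hy, hC⟩ := h
        have e1 := filter_not_sat hy hC
        have hle : first C S (cube (L \ vars (C r)) y) ≤ r :=
          first_le_of_dead fun z hz => by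
            rw [← e1] at hz
            exact (mem_filter.1 hz).2
        have hadm : cnt C (cube (L \ vars (C r)) y) M ≤ d * w * (1 - d) ^ M.card := by
          have h2 := cnt_split (C := C) (cube L x) M r
          rw [e1] at h2
          by_cases hrM : r ∈ M
          · rw [insert_eq_of_mem hrM] at h2
            have : 0 ≤ d * w * (1 - d) ^ M.card := by positivity
            linarith
          · have h3 : ¬ cnt C (cube L x) (insert r M) ≤ w * (1 - d) ^ (insert r M).card := by
              intro h4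
              have := hmax (insert r M) (mem_filter.2 ⟨mem_powerset.2 (insert_subset
                (mem_union_right _ (mem_range.2 hr)) hM1), hM2.trans (subset_insert _ _), h4⟩)
              rw [card_insert_of_notMem hrM] at this
              omega
            rw [card_insert_of_notMem hrM, pow_succ, not_le] at h3
            nlinarith
        rw [e1]
        rcases hle.lt_or_eq with hlt | heq
        · rw [phi_eq_zero (by omega) hlt, abs_zero]
          exact hs0 r
        · have h1 := ih (d * w) (mul_nonneg hd0 hw)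
            ((mul_le_of_le_one_left hw hd1).trans hww) _ y M hMS hadm
          rw [heq] at h1
          refine h1.trans (le_trans (le_of_eq ?_) (sum_le_sum_of_subset_of_nonneg
            (s := cube (L \ vars (C r)) y) (e1 ▸ filter_subset _ _) fun z _ _ => hch0 _ _))
          rw [sum_congr rfl (g := fun _ => bnd C S B d j (d * w) (L \ vars (C r))
            (cube (L \ vars (C r)) y) / 2 ^ (L \ vars (C r)).card), sum_const, card_cube]
          · simp only [nsmul_eq_mul, Nat.cast_pow, Nat.cast_ofNat]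
            field_simp
          · intro z hz
            simp only [hch]
            rw [cube_eq_of_mem hz, if_pos heq]
      · push Not at h
        rw [filter_eq_empty_iff.2 (by simpa using h)]
        simpa [phi] using hs0 r
    have hind : ∀ r ≤ r₀, |phi C χ (cube L x) M r| ≤
        B + ∑ s ∈ range r, ∑ y ∈ cube L x, ch s y := by
      intro r
      induction r with
      | zero =>
        intro _
        simpa [phi] using hB L x M hMS (by omega)
      | succ r ihr =>
        intro hr
        rw [sum_range_succ, phi_succ_wide]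
        have h1 := ihr (by omega)
        have h2 := hchild r (by omega)
        have h3 := abs_sub (phi C χ (cube L x) M r)
          (phi C χ ((cube L x).filter fun y => ¬ sat (C r) y) M r)
        linarith
    refine (hind r₀ le_rfl).trans (add_le_add_right (sum_le_sum_of_subset_of_nonneg
      (range_subset_range.2 hr₀S) fun s _ _ => hs0 s) _)

omit [DecidableEq V] in
theorem sum_pow_card (a : ℝ) : ∑ L : Finset V, a ^ L.card = (1 + a) ^ Fintype.card V := by
  rw [← card_univ, ← prod_const, prod_one_add, powerset_univ]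
  simp

/-- Removing the variables of `W`. -/
theorem sum_sdiff_le (W : Finset V) {a : ℝ} (ha : 0 ≤ a) (g : Finset V → ℝ) (hg : ∀ L, 0 ≤ g L) :
    ∑ L : Finset V, a ^ L.card * g (L \ W) ≤
      (1 + a) ^ W.card * ∑ L : Finset V, a ^ L.card * g L := by
  have h1 : (1 + a) ^ W.card = ∑ J ∈ W.powerset, a ^ J.card := by
    rw [← prod_const, prod_one_add]
    simp
  rw [h1, sum_mul_sum, ← sum_product']
  have h2 : ∑ L : Finset V, a ^ L.card * g (L \ W) =
      ∑ p ∈ (univ : Finset (Finset V)).image (fun L => (L ∩ W, L \ W)),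
        a ^ p.1.card * (a ^ p.2.card * g p.2) := by
    rw [sum_image]
    · refine sum_congr rfl fun L _ => ?_
      rw [← mul_assoc, ← pow_add, card_inter_add_card_sdiff]
    · intro L1 _ L2 _ h
      simp only [Prod.mk.injEq] at h
      rw [← sdiff_union_inter L1 W, ← sdiff_union_inter L2 W, h.1, h.2]
  rw [h2]
  refine sum_le_sum_of_subset_of_nonneg (fun p hp => ?_) fun p _ _ =>
    mul_nonneg (by positivity) (mul_nonneg (by positivity) (hg _))
  obtain ⟨L, -, rfl⟩ := mem_image.1 hp
  exact mem_product.2 ⟨mem_powerset.2 inter_subset_right, mem_univ _⟩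

/-- The double count. -/
theorem sum_bnd_le {k : ℕ} (hC : ∀ s < S, (C s).card ≤ k) (hB : 0 ≤ B) (hd : 0 ≤ d) {a : ℝ}
    (ha : 0 ≤ a) (hκ : 2 ≤ (1 + a) ^ k) (j : ℕ) : ∀ w, 0 ≤ w →
      ∑ L : Finset V, (a / 2) ^ L.card * ∑ x, bnd C S B d j w L (cube L x) ≤
        (2 + a) ^ Fintype.card V *
          (B * (((1 + a) ^ k) ^ j - 1) + ((1 + a) ^ k) ^ j * (d ^ j * w)) := by
  have hG : ∀ c : ℝ, ∑ L : Finset V, (a / 2) ^ L.card * ∑ _x : V → Bool, c =
      (2 + a) ^ Fintype.card V * c := by
    intro c
    rw [← sum_mul, sum_pow_card, sum_const, card_univ, Fintype.card_fun, Fintype.card_bool,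
      nsmul_eq_mul, ← mul_assoc]
    push_cast
    rw [← mul_pow]
    congr 2
    ring
  induction j with
  | zero =>
    intro w _
    simp only [bnd]
    rw [hG]
    simp
  | succ j ih =>
    intro w hw
    set κ := (1 + a) ^ k with hκd
    set A : Finset V → (V → Bool) → ℝ := fun L y => bnd C S B d j (d * w) L (cube L y) with hA
    have hA0 : ∀ L y, 0 ≤ A L y := fun L y => bnd_nonneg hB hd _ _ (mul_nonneg hd hw) _ _
    set g : ℕ → (V → Bool) → Finset V → ℝ := fun s y L =>
      if first C S (cube L y) = s then A L y / 2 ^ L.card else 0 with hg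
    have hg0 : ∀ s y L, 0 ≤ g s y L := by
      intro s y L
      simp only [hg]
      split_ifs
      · exact div_nonneg (hA0 _ _) (by positivity)
      · exact le_rfl
    have h1 : ∀ L : Finset V, (a / 2) ^ L.card * ∑ x, bnd C S B d (j + 1) w L (cube L x) =
        (a / 2) ^ L.card * (∑ _x : V → Bool, B) +
          ∑ y, ∑ s ∈ range S, a ^ L.card * g s y (L \ vars (C s)) := by
      intro L
      have : ∀ x, bnd C S B d (j + 1) w L (cube L x) =
          B + ∑ s ∈ range S, ∑ y ∈ cube L x, g s y (L \ vars (C s)) := fun x => rfl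
      simp only [this]
      rw [sum_add_distrib, mul_add, sum_comm (s := univ) (t := range S),
        sum_comm (s := univ) (t := range S), mul_sum (range S)]
      congr 1
      refine sum_congr rfl fun s _ => ?_
      rw [sum_sum_cube, ← mul_sum, ← mul_assoc, div_pow, div_mul_cancel₀ _ (by positivity)]
    have h2 : ∀ y, ∑ L : Finset V, ∑ s ∈ range S, a ^ L.card * g s y (L \ vars (C s)) ≤
        κ * ∑ L : Finset V, (a / 2) ^ L.card * A L y := by
      intro y
      rw [sum_comm]
      refine (sum_le_sum fun s hs => (sum_sdiff_le _ ha _ (hg0 s y)).trans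
        (mul_le_mul_of_nonneg_right (pow_le_pow_right₀ (by linarith)
          ((card_vars_le _).trans (hC s (mem_range.1 hs))))
          (sum_nonneg fun L _ => mul_nonneg (by positivity) (hg0 s y L)))).trans ?_
      rw [← mul_sum, sum_comm]
      refine mul_le_mul_of_nonneg_left (sum_le_sum fun L _ => ?_) (by positivity)
      rw [← mul_sum, div_pow, div_mul_eq_mul_div, mul_div_assoc]
      refine mul_le_mul_of_nonneg_left ?_ (by positivity)
      simp only [hg]
      rw [sum_ite_eq]
      split_ifs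
      · exact le_rfl
      · exact div_nonneg (hA0 _ _) (by positivity)
    have h3 := ih (d * w) (mul_nonneg hd hw)
    simp only [h1]
    rw [sum_add_distrib, hG, sum_comm]
    have h4 := sum_le_sum (s := univ) fun y _ => h2 y
    rw [← mul_sum, sum_comm (s := univ) (t := univ)
      (f := fun y (L : Finset V) => (a / 2) ^ L.card * A L y)] at h4
    simp only [← mul_sum] at h4
    have h5 := mul_le_mul_of_nonneg_left h3 (show 0 ≤ κ by positivity)
    have h6 : 0 ≤ (2 + a) ^ Fintype.card V * B * (κ - 2) :=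
      mul_nonneg (by positivity) (by linarith)
    simp only [hA, ← mul_sum] at h4 ⊢
    rw [pow_succ, pow_succ]
    nlinarith

/-- **Sparsification by measure**, for a list of clauses. -/
theorem meas_list {k : ℕ} (hC : ∀ s < S, (C s).card ≤ k) (hχ : ∀ y, |χ y| ≤ 1) (hd0 : 0 ≤ d)
    (hd1 : d ≤ 1) {N₀ : ℕ} (hN₀ : 2 ^ Fintype.card V * (1 - d) ^ N₀ ≤ B)
    (hB : ∀ L x, ∀ N ⊆ range S, N.card ≤ N₀ → |∑ y ∈ cube L x with allIn C N y, χ y| ≤ B)
    {a : ℝ} (ha : 0 ≤ a) (hκ : 2 ≤ (1 + a) ^ k) (R : ℕ) :
    (1 + a) ^ Fintype.card V * |∑ y with allIn C (range S) y, χ y| ≤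
      (2 + a) ^ Fintype.card V * (((1 + a) ^ k) ^ R * (B + d ^ R * 2 ^ Fintype.card V)) := by
  have hB0 : 0 ≤ B := (abs_nonneg _).trans (hB ∅ (fun _ => false) ∅ (empty_subset _) (by simp))
  have h1 := sum_bnd_le hC hB0 hd0 ha hκ R (2 ^ Fintype.card V) (by positivity)
  have h2 : ∀ L : Finset V, a ^ L.card * |∑ y with allIn C (range S) y, χ y| ≤
      (a / 2) ^ L.card * ∑ x, bnd C S B d R (2 ^ Fintype.card V) L (cube L x) := by
    intro L
    have g1 : ∀ x, |phi C χ (cube L x) ∅ S| ≤
        bnd C S B d R (2 ^ Fintype.card V) L (cube L x) := by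
      intro x
      rcases (first_le (C := C) (S := S) (cube L x)).lt_or_eq with h | h
      · rw [phi_eq_zero le_rfl h, abs_zero]
        exact bnd_nonneg hB0 hd0 _ _ (by positivity) _ _
      · have := phi_le_bnd hχ hd0 hd1 hN₀ hB R _ (by positivity) le_rfl L x ∅ (empty_subset _)
          (by
            rw [card_empty, pow_zero, mul_one, cnt]
            have := card_le_univ ((cube L x).filter (allIn C ∅))
            rw [Fintype.card_fun, Fintype.card_bool] at this
            exact_mod_cast this)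
        rwa [h] at this
    have g2 : ∑ x, phi C χ (cube L x) ∅ S =
        2 ^ L.card * ∑ y with allIn C (range S) y, χ y := by
      simp only [phi, empty_union, sum_filter]
      rw [sum_sum_cube]
    have g3 := (abs_sum_le_sum_abs _ _).trans (sum_le_sum (s := univ) fun x _ => g1 x)
    rw [g2, abs_mul, abs_of_pos (by positivity)] at g3
    have g4 := mul_le_mul_of_nonneg_left g3 (show 0 ≤ (a / 2) ^ L.card by positivity)
    rwa [← mul_assoc, div_pow, div_mul_cancel₀ _ (by positivity), ← div_pow] at g4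
  have h3 := sum_le_sum (s := univ) fun L _ => h2 L
  rw [← sum_mul, sum_pow_card] at h3
  refine h3.trans (h1.trans (mul_le_mul_of_nonneg_left ?_ (by positivity)))
  nlinarith

/-- The points of a cube satisfying some clauses are the solutions of a CNF. -/
theorem filter_cube_eq (L : Finset V) (x : V → Bool) (N : Finset ℕ) :
    (cube L x).filter (allIn C N) =
      sols (N.image C ∪ (univ \ L).image fun v => ({(v, x v)} : Clause V)) := by
  ext y
  rw [mem_filter, mem_cube, mem_sols]
  constructor
  · rintro ⟨h1, h2⟩ D hD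
    rcases mem_union.1 hD with hD | hD
    · obtain ⟨s, hs, rfl⟩ := mem_image.1 hD
      exact h2 s hs
    · obtain ⟨v, hv, rfl⟩ := mem_image.1 hD
      exact ⟨_, mem_singleton_self _, h1 v (mem_sdiff.1 hv).2⟩
  · intro h
    refine ⟨fun v hv => ?_, fun s hs => h _ (mem_union_left _ (mem_image_of_mem _ hs))⟩
    obtain ⟨l, hl, e⟩ := h _ (mem_union_right _ (mem_image_of_mem _
      (mem_sdiff.2 ⟨mem_univ v, hv⟩)))
    rw [mem_singleton.1 hl] at e
    exact e

theorem filter_list_eq (F : Finset (Clause V)) :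
    univ.filter (allIn (fun s => F.toList.getD s ∅) (range F.toList.length)) = sols F := by
  ext x
  rw [mem_sols, mem_filter]
  constructor
  · rintro ⟨-, h⟩ D hD
    obtain ⟨s, hs, rfl⟩ := List.getElem_of_mem (mem_toList.2 hD)
    have := h s (mem_range.2 hs)
    simp only at this
    rwa [List.getD_eq_getElem _ _ hs] at this
  · intro h
    refine ⟨mem_univ _, fun s hs => h _ ?_⟩
    simp only
    rw [List.getD_eq_getElem _ _ (mem_range.1 hs)]
    exact mem_toList.1 (List.getElem_mem _)

theorem two_pow_mul_le (m K : ℕ) (hK : 1 ≤ K) :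
    (2 : ℝ) ^ m * (1 - (K : ℝ)⁻¹) ^ (m * K) ≤ 1 := by
  have hK0 : (1 : ℝ) ≤ K := by exact_mod_cast hK
  have h0 : 0 ≤ 1 - (K : ℝ)⁻¹ := sub_nonneg.2 (inv_le_one_of_one_le₀ hK0)
  have h1 : (1 - (K : ℝ)⁻¹) ^ K ≤ Real.exp (-1) := by
    have := Real.one_sub_le_exp_neg (K : ℝ)⁻¹
    refine (pow_le_pow_left₀ h0 this K).trans (le_of_eq ?_)
    rw [← Real.exp_nat_mul]
    congr 1
    field_simp
  have h2 : 2 * Real.exp (-1) ≤ 1 := by
    rw [Real.exp_neg, ← div_eq_mul_inv, div_le_one (Real.exp_pos 1)]
    linarith [Real.add_one_le_exp 1]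
  rw [mul_comm m K, pow_mul, ← mul_pow]
  exact pow_le_one₀ (by positivity) (by nlinarith)

end Vale.Agent.N336.Meas

namespace Vale.Agent.N336

open Finset Vale.Agent.N336.Signed Vale.Agent.N336.Meas

variable {V : Type*} [DecidableEq V] [Fintype V]

/-- **Sparsification by measure.** The bound `2 ^ (17 m / 20)` on the sums over CNFs of width at
most `k` with at most `2 m 2 ^ (40 k)` clauses gives the bound `2 ^ (9 m / 10)` for all CNFs of
width at most `k`, where `m` is the number of variables. -/
theorem sparsify_meas (χ : (V → Bool) → ℝ) (hχ : ∀ y, |χ y| ≤ 1) {k : ℕ} (hk : 1 ≤ k)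
    (hm : 4000 * k ≤ Fintype.card V)
    (h : ∀ F : Finset (Clause V), F.card ≤ 2 * Fintype.card V * 2 ^ (40 * k) →
      (∀ C ∈ F, C.card ≤ k) → |∑ y ∈ sols F, χ y| ≤ (2 : ℝ) ^ (17 * (Fintype.card V : ℝ) / 20))
    (F : Finset (Clause V)) (hF : ∀ C ∈ F, C.card ≤ k) :
    |∑ y ∈ sols F, χ y| ≤ (2 : ℝ) ^ (9 * (Fintype.card V : ℝ) / 10) := by
  set m := Fintype.card V with hmd
  set B : ℝ := (2 : ℝ) ^ (17 * (m : ℝ) / 20) with hB
  have hB1 : 1 ≤ B := Real.one_le_rpow one_le_two (by positivity)
  set K : ℕ := 2 ^ (40 * k) with hK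
  have hK1 : 1 ≤ K := Nat.one_le_two_pow
  have hKR : (1 : ℝ) ≤ K := by exact_mod_cast hK1
  set R := m / (250 * k) with hR
  have hR1 : 250 * k * R ≤ m := Nat.mul_div_le _ _
  have hR2 : m < 250 * k * (R + 1) := Nat.lt_mul_div_succ _ (by omega)
  have hC : ∀ s < F.toList.length, (F.toList.getD s ∅).card ≤ k := fun s hs => hF _ (by
    rw [List.getD_eq_getElem _ _ hs]
    exact mem_toList.1 (List.getElem_mem hs))
  have h64 : (1 + 63 : ℝ) ^ k = 2 ^ (6 * k) := by
    rw [pow_mul]
    norm_num
  have h1 := meas_list (χ := χ) (C := fun s => F.toList.getD s ∅) (B := B) (d := (K : ℝ)⁻¹)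
    (N₀ := m * K) hC hχ (by positivity) (inv_le_one_of_one_le₀ hKR)
    ((two_pow_mul_le m K hK1).trans hB1) (fun L x N hN hc => by
      rw [filter_cube_eq]
      refine h _ ((card_union_le _ _).trans ?_) fun D hD => ?_
      · have a1 := (card_image_le (s := N) (f := fun s => F.toList.getD s ∅)).trans hc
        have a2 := (card_image_le (s := univ \ L)
          (f := fun v => ({(v, x v)} : Clause V))).trans (card_le_univ _)
        have a3 : m ≤ m * K := Nat.le_mul_of_pos_right _ hK1
        have a4 : 2 * m * K = m * K + m * K := by ring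
        omega
      · rcases mem_union.1 hD with hD | hD
        · obtain ⟨s, hs, rfl⟩ := mem_image.1 hD
          exact hC s (mem_range.1 (hN hs))
        · obtain ⟨v, -, rfl⟩ := mem_image.1 hD
          simpa using hk) (a := 63) (by norm_num) (by
      rw [h64]
      exact le_self_pow₀ one_le_two (by omega)) R
  rw [filter_list_eq, h64, ← hmd] at h1
  have h2 : ((K : ℝ)⁻¹) ^ R * 2 ^ m ≤ B := by
    rw [inv_pow, inv_mul_le_iff₀ (by positivity), hK, hB]
    push_cast
    rw [← pow_mul, ← Real.rpow_natCast, ← Real.rpow_natCast, ← Real.rpow_add two_pos]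
    refine Real.rpow_le_rpow_of_exponent_le one_le_two ?_
    have : ((3 * m : ℕ) : ℝ) ≤ (20 * (40 * k * R) : ℕ) := by
      exact_mod_cast (by nlinarith : 3 * m ≤ 20 * (40 * k * R))
    push_cast at this ⊢
    linarith
  have h3 : (2 + 63 : ℝ) ^ m ≤ (1 + 63 : ℝ) ^ m * (2 : ℝ) ^ ((m : ℝ) / 40) := by
    have : (65 / 64 : ℝ) ≤ (2 : ℝ) ^ ((1 : ℝ) / 40) := by
      rw [← pow_le_pow_iff_left₀ (n := 40) (by norm_num) (by positivity) (by norm_num),
        ← Real.rpow_natCast ((2 : ℝ) ^ ((1 : ℝ) / 40)), ← Real.rpow_mul (by norm_num)]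
      norm_num
    rw [show (m : ℝ) / 40 = 1 / 40 * m by ring, Real.rpow_mul (by norm_num), Real.rpow_natCast,
      ← mul_pow]
    exact pow_le_pow_left₀ (by norm_num) (by linarith) m
  have h4 : ((2 : ℝ) ^ (6 * k)) ^ R * 2 ≤ (2 : ℝ) ^ ((m : ℝ) / 40) := by
    rw [← pow_mul, ← pow_succ, ← Real.rpow_natCast]
    refine Real.rpow_le_rpow_of_exponent_le one_le_two ?_
    have : ((40 * (6 * k * R + 1) : ℕ) : ℝ) ≤ m := by
      exact_mod_cast (by nlinarith : 40 * (6 * k * R + 1) ≤ m)
    push_cast at this ⊢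
    linarith
  have h5 : (2 : ℝ) ^ ((m : ℝ) / 40) * ((2 : ℝ) ^ ((m : ℝ) / 40) * B) =
      (2 : ℝ) ^ (9 * (m : ℝ) / 10) := by
    rw [hB, ← Real.rpow_add two_pos, ← Real.rpow_add two_pos]
    congr 1
    ring
  have h6 : ((2 : ℝ) ^ (6 * k)) ^ R * (B + ((K : ℝ)⁻¹) ^ R * 2 ^ m) ≤
      (2 : ℝ) ^ ((m : ℝ) / 40) * B := by
    have : 0 ≤ ((2 : ℝ) ^ (6 * k)) ^ R := by positivity
    nlinarith
  refine le_of_mul_le_mul_left (h1.trans ?_) (show (0 : ℝ) < (1 + 63) ^ m by positivity)
  rw [← h5, ← mul_assoc ((1 + 63 : ℝ) ^ m)]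
  exact mul_le_mul h3 h6 (by positivity) (by positivity)

end Vale.Agent.N336
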