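import Vale.Agent.N336.Cnf

/-!
Signed width reduction: a correlation bound for CNFs that are narrow on the subcubes of a
down-closed family gives a correlation bound for all CNFs of width at most `k`.
-/

namespace Vale.Agent.N336.Signed

open Finset Vale.Agent.N336

variable {V : Type*} [DecidableEq V] [Fintype V]

/-- All clauses with index in `N` hold at `y`. -/
def allIn (C : ℕ → Clause V) (N : Finset ℕ) (y : V → Bool) : Prop := ∀ s ∈ N, sat (C s) y

instance (C : ℕ → Clause V) (N : Finset ℕ) (y : V → Bool) : Decidable (allIn C N y) := by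
  unfold allIn; infer_instance

/-- Sum of `χ` over the points of `Q` satisfying the clauses of `N` and the first `r` clauses. -/
def phi (C : ℕ → Clause V) (χ : (V → Bool) → ℝ) (Q : Finset (V → Bool)) (N : Finset ℕ) (r : ℕ) :
    ℝ := ∑ y ∈ Q with allIn C (N ∪ range r) y, χ y

/-- The first clause that is false on the whole of `Q`, or `S`. -/
noncomputable def first (C : ℕ → Clause V) (S : ℕ) (Q : Finset (V → Bool)) : ℕ :=
  sInf {s | s = S ∨ ∀ y ∈ Q, ¬ sat (C s) y}

/-- Indices below `S` of clauses with at most `k'` variables in `L`. -/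
def narrow (C : ℕ → Clause V) (S k' : ℕ) (L : Finset V) : Finset ℕ :=
  (range S).filter fun s => (vars (C s) ∩ L).card ≤ k'

/-- The largest sum over narrow sets of clauses. -/
noncomputable def amax (C : ℕ → Clause V) (χ : (V → Bool) → ℝ) (S k' : ℕ) (L : Finset V)
    (Q : Finset (V → Bool)) : ℝ :=
  (narrow C S k' L).powerset.sup' (powerset_nonempty _) fun N => |phi C χ Q N (first C S Q)|

variable {C : ℕ → Clause V} {χ : (V → Bool) → ℝ} {S k' : ℕ}

omit [Fintype V] [DecidableEq V] in
theorem first_le (Q : Finset (V → Bool)) : first C S Q ≤ S := Nat.sInf_le (Or.inl rfl)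

omit [Fintype V] [DecidableEq V] in
theorem first_le_of_dead {Q : Finset (V → Bool)} {s : ℕ} (h : ∀ y ∈ Q, ¬ sat (C s) y) :
    first C S Q ≤ s := Nat.sInf_le (Or.inr h)

omit [Fintype V] [DecidableEq V] in
theorem first_spec (Q : Finset (V → Bool)) :
    first C S Q = S ∨ ∀ y ∈ Q, ¬ sat (C (first C S Q)) y :=
  Nat.sInf_mem (s := {s | s = S ∨ ∀ y ∈ Q, ¬ sat (C s) y}) ⟨S, Or.inl rfl⟩

omit [Fintype V] [DecidableEq V] in
theorem phi_eq_zero {Q : Finset (V → Bool)} {N : Finset ℕ} {r : ℕ} (hr : r ≤ S)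
    (h : first C S Q < r) : phi C χ Q N r = 0 := by
  unfold phi
  rw [filter_eq_empty_iff.2, sum_empty]
  intro y hy hall
  rcases first_spec (C := C) (S := S) Q with e | e
  · omega
  · exact e y hy (hall _ (mem_union_right _ (mem_range.2 h)))

omit [Fintype V] in
theorem le_amax {L : Finset V} {Q : Finset (V → Bool)} {N : Finset ℕ} (hN : N ⊆ narrow C S k' L) :
    |phi C χ Q N (first C S Q)| ≤ amax C χ S k' L Q :=
  le_sup' (fun N => |phi C χ Q N (first C S Q)|) (mem_powerset.2 hN)

omit [Fintype V] in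
theorem amax_nonneg (L : Finset V) (Q : Finset (V → Bool)) : 0 ≤ amax C χ S k' L Q :=
  (abs_nonneg _).trans (le_amax (empty_subset _))

omit [Fintype V] in
theorem narrow_mono {L L' : Finset V} (h : L' ⊆ L) : narrow C S k' L ⊆ narrow C S k' L' := by
  intro s hs
  rw [narrow, mem_filter] at hs ⊢
  exact ⟨hs.1, (card_le_card (inter_subset_inter_left h)).trans hs.2⟩

omit [Fintype V] [DecidableEq V] in
theorem phi_succ_narrow (Q : Finset (V → Bool)) (N : Finset ℕ) (r : ℕ) :
    phi C χ Q N (r + 1) = phi C χ Q (insert r N) r := by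
  unfold phi
  congr 2
  ext s
  rw [range_add_one]
  simp

omit [Fintype V] [DecidableEq V] in
theorem phi_succ_wide (Q : Finset (V → Bool)) (N : Finset ℕ) (r : ℕ) :
    phi C χ Q N (r + 1) = phi C χ Q N r - phi C χ (Q.filter fun y => ¬ sat (C r) y) N r := by
  unfold phi
  rw [eq_sub_iff_add_eq, filter_filter,
    ← sum_filter_add_sum_filter_not (Q.filter (allIn C (N ∪ range r))) (fun y => sat (C r) y),
    filter_filter, filter_filter]
  congr 2
  · refine filter_congr fun y _ => ?_
    simp only [allIn, range_add_one, union_insert, mem_insert, forall_eq_or_imp]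
    tauto
  · exact filter_congr fun y _ => and_comm

/-- The contribution of the wide clause number `s`. -/
noncomputable def child (C : ℕ → Clause V) (χ : (V → Bool) → ℝ) (S k' : ℕ) (L : Finset V)
    (s : ℕ) (y : V → Bool) : ℝ :=
  if first C S (cube L y) = s then amax C χ S k' L (cube L y) / 2 ^ L.card else 0

theorem child_nonneg (L : Finset V) (s : ℕ) (y : V → Bool) : 0 ≤ child C χ S k' L s y := by
  unfold child
  have := amax_nonneg (C := C) (χ := χ) (S := S) (k' := k') L (cube L y)
  split_ifs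
  · positivity
  · exact le_rfl

theorem phi_child_le {L : Finset V} (x : V → Bool) {N : Finset ℕ} (hN : N ⊆ narrow C S k' L)
    {r : ℕ} (hr : r ≤ S) :
    |phi C χ ((cube L x).filter fun y => ¬ sat (C r) y) N r|
      ≤ ∑ y ∈ cube L x, child C χ S k' (L \ vars (C r)) r y := by
  have h0 : 0 ≤ ∑ y ∈ cube L x, child C χ S k' (L \ vars (C r)) r y :=
    sum_nonneg fun y _ => child_nonneg _ _ _
  by_cases h : ∃ y ∈ cube L x, ¬ sat (C r) y
  · obtain ⟨y, hy, hC⟩ := h
    have e := filter_not_sat hy hC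
    have hle : first C S (cube (L \ vars (C r)) y) ≤ r :=
      first_le_of_dead fun z hz => by
        rw [← e] at hz
        exact (mem_filter.1 hz).2
    rw [e]
    rcases hle.lt_or_eq with hlt | heq
    · rw [phi_eq_zero hr hlt, abs_zero]
      exact h0
    · have h1 := le_amax (χ := χ) (Q := cube (L \ vars (C r)) y)
        (hN.trans (narrow_mono (sdiff_subset (t := vars (C r)))))
      rw [heq] at h1
      refine h1.trans (le_trans (le_of_eq ?_) (sum_le_sum_of_subset_of_nonneg
        (s := cube (L \ vars (C r)) y) (e ▸ filter_subset _ _) fun z _ _ => child_nonneg _ _ _))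
      rw [sum_congr rfl (g := fun _ => amax C χ S k' (L \ vars (C r)) (cube (L \ vars (C r)) y)
        / 2 ^ (L \ vars (C r)).card), sum_const, card_cube]
      · simp only [nsmul_eq_mul, Nat.cast_pow, Nat.cast_ofNat]
        field_simp
      · intro z hz
        rw [child, cube_eq_of_mem hz, if_pos heq]
  · push Not at h
    rw [filter_eq_empty_iff.2 (by simpa using h)]
    simpa [phi] using h0

theorem phi_le {L : Finset V} (x : V → Bool) {B : ℝ}
    (hB : ∀ N ⊆ narrow C S k' L, |∑ y ∈ cube L x with allIn C N y, χ y| ≤ B) :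
    ∀ r ≤ S, ∀ N ⊆ narrow C S k' L, |phi C χ (cube L x) N r| ≤ B +
      ∑ s ∈ range r with k' < (vars (C s) ∩ L).card,
        ∑ y ∈ cube L x, child C χ S k' (L \ vars (C s)) s y := by
  intro r
  induction r with
  | zero =>
    intro _ N hN
    simpa [phi] using hB N hN
  | succ r ih =>
    intro hr N hN
    rw [range_add_one, filter_insert]
    split_ifs with hw
    · rw [sum_insert (by simp), phi_succ_wide]
      have h1 := ih (by omega) N hN
      have h2 := phi_child_le (χ := χ) x hN (show r ≤ S by omega)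
      have h3 := abs_sub (phi C χ (cube L x) N r)
        (phi C χ ((cube L x).filter fun y => ¬ sat (C r) y) N r)
      linarith
    · rw [phi_succ_narrow]
      refine ih (by omega) _ (insert_subset ?_ hN)
      rw [narrow, mem_filter, mem_range]
      exact ⟨by omega, not_lt.1 hw⟩

theorem amax_le {L : Finset V} (x : V → Bool) {B : ℝ}
    (hB : ∀ N ⊆ narrow C S k' L, |∑ y ∈ cube L x with allIn C N y, χ y| ≤ B) :
    amax C χ S k' L (cube L x) ≤ B +
      ∑ s ∈ range S with k' < (vars (C s) ∩ L).card,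
        ∑ y ∈ cube L x, child C χ S k' (L \ vars (C s)) s y := by
  refine sup'_le _ _ fun N hN => ?_
  refine (phi_le x hB _ (first_le _) N (mem_powerset.1 hN)).trans ?_
  refine add_le_add_right (sum_le_sum_of_subset_of_nonneg
    (filter_subset_filter _ (range_subset_range.2 (first_le _))) fun s _ _ =>
      sum_nonneg fun y _ => child_nonneg _ _ _) _

omit [Fintype V] [DecidableEq V] in
/-- The total weight of the large subsets of a small set. -/
theorem sum_large_le {W : Finset V} {k : ℕ} (hW : W.card ≤ k) {δ : ℝ} (hδ : 0 ≤ δ)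
    (hk : (1 + 2 * δ) ^ k ≤ 2 ^ (k' + 1)) :
    ∑ J ∈ W.powerset with k' < J.card, δ ^ J.card ≤ 1 := by
  have h1 : ∑ J ∈ W.powerset, (2 * δ) ^ J.card = (1 + 2 * δ) ^ W.card := by
    rw [← prod_const, prod_one_add]
    simp
  have h2 : (1 + 2 * δ) ^ W.card ≤ (1 + 2 * δ) ^ k := pow_le_pow_right₀ (by linarith) hW
  have h3 : 2 ^ (k' + 1) * ∑ J ∈ W.powerset with k' < J.card, δ ^ J.card
      ≤ ∑ J ∈ W.powerset, (2 * δ) ^ J.card := by
    rw [mul_sum]
    refine le_trans (sum_le_sum fun J hJ => ?_)
      (sum_le_sum_of_subset_of_nonneg (filter_subset (fun J : Finset V => k' < J.card) _)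
        fun J _ _ => by positivity)
    rw [mul_pow]
    have : (2 : ℝ) ^ (k' + 1) ≤ 2 ^ J.card := pow_le_pow_right₀ (by norm_num) (mem_filter.1 hJ).2
    gcongr
  have h4 : (0 : ℝ) < 2 ^ (k' + 1) := by positivity
  by_contra hc
  push Not at hc
  nlinarith

/-- The double count: the children of all cubes weigh at most as much as the cubes that are not
full. -/
theorem sum_child_le (LL : Finset (Finset V)) (hdown : ∀ L ∈ LL, ∀ L' ⊆ L, L' ∈ LL) {m k : ℕ}
    (hm : ∀ L ∈ LL, L.card ≤ m) (hC : ∀ s < S, (C s).card ≤ k) {δ : ℝ} (hδ : 0 ≤ δ)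
    (hk : (1 + 2 * δ) ^ k ≤ 2 ^ (k' + 1)) (y : V → Bool) :
    ∑ L ∈ LL, ∑ s ∈ range S with k' < (vars (C s) ∩ L).card,
        δ ^ L.card * child C χ S k' (L \ vars (C s)) s y
      ≤ ∑ L ∈ LL with L.card < m, (δ / 2) ^ L.card * amax C χ S k' L (cube L y) := by
  rw [sum_sigma']
  set P := LL.sigma fun L => (range S).filter fun s => k' < (vars (C s) ∩ L).card with hP
  have hmap : ∀ p ∈ P, p.1 \ vars (C p.2) ∈ LL.filter fun L => L.card < m := by
    rintro ⟨L, s⟩ hp
    simp only [hP, mem_sigma, mem_filter, mem_range] at hp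
    refine mem_filter.2 ⟨hdown L hp.1 _ sdiff_subset, ?_⟩
    have h1 := card_sdiff_add_card_inter L (vars (C s))
    have h2 := hm L hp.1
    have h3 := hp.2.2
    rw [inter_comm] at h3
    change (L \ vars (C s)).card < m
    omega
  rw [← sum_fiberwise_of_maps_to hmap]
  refine sum_le_sum fun L' _ => ?_
  set s₀ := first C S (cube L' y) with hs₀
  have hA := amax_nonneg (C := C) (χ := χ) (S := S) (k' := k') L' (cube L' y)
  set A := amax C χ S k' L' (cube L' y) with hAd
  have key : ∑ p ∈ P with p.1 \ vars (C p.2) = L',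
      δ ^ p.1.card * child C χ S k' (p.1 \ vars (C p.2)) p.2 y
      = ∑ p ∈ (P.filter fun p => p.1 \ vars (C p.2) = L').filter fun p => p.2 = s₀,
        (δ / 2) ^ L'.card * A * δ ^ (vars (C s₀) ∩ p.1).card := by
    rw [sum_filter (fun p : (Σ _ : Finset V, ℕ) => p.2 = s₀)]
    refine sum_congr rfl fun p hp => ?_
    have e := (mem_filter.1 hp).2
    rw [e, child, ← hs₀]
    by_cases h : p.2 = s₀
    · rw [if_pos h, if_pos h.symm, ← card_sdiff_add_card_inter p.1 (vars (C p.2)), e, h,
        inter_comm, pow_add, div_pow]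
      ring
    · rw [if_neg h, if_neg (Ne.symm h), mul_zero]
  rw [key, ← mul_sum]
  refine mul_le_of_le_one_right (by positivity) ?_
  by_cases hs : s₀ < S
  · refine le_trans ?_ (sum_large_le (W := vars (C s₀)) ((card_vars_le _).trans (hC _ hs)) hδ hk)
    rw [← sum_image (g := fun p : (Σ _ : Finset V, ℕ) => vars (C s₀) ∩ p.1)
      (f := fun J => δ ^ J.card)]
    refine sum_le_sum_of_subset_of_nonneg ?_ (fun _ _ _ => by positivity)
    swap
    · rintro ⟨L1, s1⟩ h1 ⟨L2, s2⟩ h2 e
      simp only [coe_filter, mem_filter, Set.mem_ofPred_eq] at h1 h2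
      obtain ⟨⟨-, a1⟩, rfl⟩ := h1
      obtain ⟨⟨-, a2⟩, b2⟩ := h2
      subst b2
      have : L1 = L2 := by
        rw [← sdiff_union_inter L1 (vars (C s₀)), ← sdiff_union_inter L2 (vars (C s₀)), a1, a2,
          inter_comm L1, inter_comm L2]
        exact congrArg _ e
      rw [this]
    · intro J hJ
      obtain ⟨⟨L1, s1⟩, h1, rfl⟩ := mem_image.1 hJ
      simp only [hP, mem_filter, mem_sigma] at h1
      obtain ⟨⟨⟨-, -, a1⟩, -⟩, rfl⟩ := h1
      exact mem_filter.2 ⟨mem_powerset.2 inter_subset_left, a1⟩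
  · rw [sum_eq_zero]
    · exact zero_le_one
    · rintro ⟨L1, s1⟩ h1
      simp only [hP, mem_filter, mem_sigma, mem_range] at h1
      obtain ⟨⟨⟨-, a1, -⟩, -⟩, rfl⟩ := h1
      exact absurd a1 hs

/-- **Signed width reduction.** -/
theorem signed (LL : Finset (Finset V)) (hdown : ∀ L ∈ LL, ∀ L' ⊆ L, L' ∈ LL) {m k : ℕ}
    (hm : ∀ L ∈ LL, L.card ≤ m) (hC : ∀ s < S, (C s).card ≤ k) {δ : ℝ} (hδ : 0 ≤ δ)
    (hk : (1 + 2 * δ) ^ k ≤ 2 ^ (k' + 1)) {B : ℝ}
    (hB : ∀ L ∈ LL, ∀ x, ∀ N ⊆ narrow C S k' L, |∑ y ∈ cube L x with allIn C N y, χ y| ≤ B) :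
    (LL.filter fun L => L.card = m).card * δ ^ m * |∑ y with allIn C (range S) y, χ y|
      ≤ B * 2 ^ Fintype.card V * ∑ L ∈ LL, (δ / 2) ^ L.card := by
  set a : Finset V → ℝ := fun L => (δ / 2) ^ L.card * ∑ x, amax C χ S k' L (cube L x) with ha
  have h1 : ∀ L ∈ LL, a L ≤ B * 2 ^ Fintype.card V * (δ / 2) ^ L.card +
      ∑ y, ∑ s ∈ range S with k' < (vars (C s) ∩ L).card,
        δ ^ L.card * child C χ S k' (L \ vars (C s)) s y := by
    intro L hL
    have g1 := sum_le_sum (s := univ) fun x _ => amax_le (χ := χ) x (hB L hL x)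
    rw [sum_add_distrib, sum_comm, sum_const] at g1
    simp only [sum_sum_cube] at g1
    have g2 := mul_le_mul_of_nonneg_left g1 (show 0 ≤ (δ / 2) ^ L.card by positivity)
    refine g2.trans (le_of_eq ?_)
    rw [mul_add, sum_comm, mul_sum]
    congr 1
    · simp [mul_comm]
    · refine sum_congr rfl fun s _ => ?_
      rw [← mul_sum, ← mul_assoc, div_pow, div_mul_cancel₀ _ (by positivity)]
  have h2 := sum_le_sum h1
  rw [sum_add_distrib, ← mul_sum, sum_comm] at h2
  have h3 := sum_le_sum (s := univ) fun y _ =>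
    sum_child_le (χ := χ) LL hdown hm hC hδ hk y
  have h4 : ∑ y, ∑ L ∈ LL with L.card < m, (δ / 2) ^ L.card * amax C χ S k' L (cube L y)
      = ∑ L ∈ LL with L.card < m, a L := by
    rw [sum_comm]
    exact sum_congr rfl fun L _ => by rw [ha, ← mul_sum]
  have h5 := sum_filter_add_sum_filter_not LL (fun L => L.card < m) a
  have h6 : LL.filter (fun L => ¬ L.card < m) = LL.filter fun L => L.card = m :=
    filter_congr fun L hL => by have := hm L hL; omega
  have h7 : ∀ L ∈ LL.filter (fun L => L.card = m),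
      δ ^ m * |∑ y with allIn C (range S) y, χ y| ≤ a L := by
    intro L hL
    have e := (mem_filter.1 hL).2
    have g1 : ∀ x, |phi C χ (cube L x) ∅ S| ≤ amax C χ S k' L (cube L x) := by
      intro x
      rcases (first_le (C := C) (S := S) (cube L x)).lt_or_eq with h | h
      · rw [phi_eq_zero le_rfl h, abs_zero]
        exact amax_nonneg _ _
      · have := le_amax (χ := χ) (Q := cube L x) (empty_subset (narrow C S k' L))
        rwa [h] at this
    have g2 : ∑ x, phi C χ (cube L x) ∅ S = 2 ^ m * ∑ y with allIn C (range S) y, χ y := by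
      simp only [phi, empty_union, sum_filter]
      rw [sum_sum_cube, e]
    have g3 := (abs_sum_le_sum_abs _ _).trans (sum_le_sum (s := univ) fun x _ => g1 x)
    rw [g2, abs_mul, abs_of_pos (by positivity)] at g3
    have g4 := mul_le_mul_of_nonneg_left g3 (show 0 ≤ (δ / 2) ^ m by positivity)
    rw [← mul_assoc, div_pow, div_mul_cancel₀ _ (by positivity), ← div_pow] at g4
    rw [ha]
    simpa only [e] using g4
  have h8 := sum_le_sum h7
  rw [sum_const, nsmul_eq_mul, ← mul_assoc] at h8
  rw [h6] at h5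
  linarith

end Vale.Agent.N336.Signed
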